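import Vale.Agent.P011UH.Cl

/-!
A criterion for representations to be polynomial.
-/

set_option autoImplicit false
set_option linter.all false

namespace Vale.Agent.P011UH

open Matrix Finset Vale.Agent.P183CH Vale.Agent.P183CH.Chev Vale.Agent.P011U Vale.Agent.P011L

variable {D : Chev} {K : Type} [Field K]

theorem glue {φ : D.grp K → K} (h : ∀ g : D.grp K, ∃ (N : ℕ) (p : MvPolynomial _ K),
    ∀ x : D.grp K, dl (bt D) x.1.1 ≠ 0 → φ (g⁻¹ * x) * dl (bt D) x.1.1 ^ N = ev K x.1.1 p) :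
    ∃ p, ∀ g : D.grp K, φ g = ev K g.1.1 p := by
  let I : Ideal (MvPolynomial (Fin D.n × Fin D.n) K) :=
    { carrier := {p | ∃ q, ∀ g : D.grp K, ev K g.1.1 p * φ g = ev K g.1.1 q}
      add_mem' := fun ⟨p, a⟩ ⟨q, b⟩ => ⟨p + q, fun g => by rw [map_add, map_add, add_mul, a, b]⟩
      zero_mem' := ⟨0, fun g => by rw [map_zero, zero_mul]⟩
      smul_mem' := fun c _ ⟨p, a⟩ => ⟨c * p, fun g => by
        rw [smul_eq_mul, map_mul, map_mul, mul_assoc, a]⟩ }
  by_cases e : I = ⊤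
  · obtain ⟨q, hq⟩ := (Ideal.eq_top_iff_one I).1 e
    exact ⟨q, fun g => by rw [← hq, map_one, one_mul]⟩
  obtain ⟨J, hJ, e⟩ := I.exists_le_maximal e
  obtain ⟨x, rfl⟩ := MvPolynomial.eq_vanishingIdeal_singleton_of_isMaximal (AlgebraicClosure K) hJ
  have e1 : ∀ p ∈ I, ev K (of fun a b => x (a, b)) p = 0 := fun p hp => e hp x rfl
  obtain ⟨g, hg⟩ := Zc.exists (D := D) (K := K) (M := of fun a b => x (a, b)) fun p hp =>
    e1 p ⟨0, fun g => by rw [hp, zero_mul, map_zero]⟩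
  obtain ⟨N, p, hp⟩ := h g
  have := e1 (dl (bt D) (g.1.1.map (algebraMap K _) * gx _ K) ^ (N + 1))
    ⟨ev K (g.1.1.map (algebraMap K _) * gx _ K) (p * dl (bt D) (gx _ K)), fun y => by
      rw [← ev_map, map_pow, ev_dl, (ev_mul g.1.1 y.1.1).2, map_mul, ev_dl, gx_map]
      change dl _ (g * y).1.1 ^ _ * _ = ev K (g * y).1.1 p * dl _ (g * y).1.1
      by_cases c : dl (bt D) (g * y).1.1 = 0
      · rw [c, zero_pow N.succ_ne_zero, zero_mul, mul_zero]
      · rw [← hp _ c, inv_mul_cancel_left]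
        ring⟩
  rw [map_pow, ev_dl, (ev_mul g.1.1 _).2] at this
  exact absurd (pow_eq_zero_iff N.succ_ne_zero |>.1 this) hg

theorem pol_all (hD : SC D) {J : Type} [Fintype J] [DecidableEq J] (ρ : D.grp K →* Matrix J J K)
    (h : ∀ i a b, ∃ p q : Polynomial K, ∀ t, ρ ((GG D K).x (D.α i) t) a b = p.eval t ∧
      ρ ((GG D K).x (-D.α i) t) a b = q.eval t) (a b : J) :
    ∃ p : MvPolynomial (Fin D.n × Fin D.n) K, ∀ g : D.grp K,
      ρ g a b = MvPolynomial.eval (fun e => g.1.1 e.1 e.2) p := by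
  cases finite_or_infinite K
  · have := Fintype.ofFinite K
    classical
    obtain ⟨p, -, hp⟩ := (MvPolynomial.map_restrict_dom_evalₗ K (Fin D.n × Fin D.n)).ge
      (Submodule.mem_top (x := Function.extend (fun (g : D.grp K) (e : Fin D.n × Fin D.n) =>
        g.1.1 e.1 e.2) (fun g => ρ g a b) fun _ => 0))
    refine ⟨p, fun g => ((congrFun hp _).trans (Function.Injective.extend_apply
      (fun x y e => ?_) _ _ g)).symm⟩
    exact Subtype.ext (Units.ext (Matrix.ext fun i j => congrFun e (i, j)))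
  obtain ⟨f, hf, e⟩ := bc (K := K) hD
  simp only [← ev_eq]
  refine glue fun g => ?_
  obtain ⟨N, p, hp⟩ := rg_spec (((ent_const (ρ g⁻¹)).mul (ent_rm ρ h hf)) a b)
  refine ⟨N, p, fun x hx => ?_⟩
  rw [← hp ⟨_, hx⟩, map_mul]
  simp only [e]

theorem pol : POL := fun _ hD _ _ _ _ _ _ ρ h => pol_all hD ρ h

/-- homomorphisms which respect the simple root elements are polynomial -/
theorem pol_of (hD : SC D) {J : Type} [Fintype J] [DecidableEq J] {H : Subgroup (GL J K)}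
    (ψ : D.grp K ≃* H)
    (h : ∀ i a b, ∃ p q : Polynomial K, ∀ t, (ψ ((GG D K).x (D.α i) t)).1.1 a b = p.eval t ∧
      (ψ ((GG D K).x (-D.α i) t)).1.1 a b = q.eval t) : Pol ψ :=
  pol_all hD ((Units.coeHom _).comp (H.subtype.comp ψ.toMonoidHom)) h

end Vale.Agent.P011UH
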