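import Vale.Agent.P011U.Base
import Mathlib.LinearAlgebra.Matrix.Cartan

/-!
Recognition of the simply connected Chevalley groups: the interfaces.
-/

set_option autoImplicit false
set_option linter.all false

namespace Vale.Agent.P011UH

open Matrix Vale.Agent.P011L Vale.Agent.P183CH Vale.Agent.P011U

/-- `f` maps the root elements of the simple roots and of their negatives to the corresponding
elements. -/
def Pin {D D' : Chev} (ε : Fin D.r ≃ Fin D'.r) {K : Type} [Field K] (f : D.grp K → D'.grp K) :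
    Prop :=
  ∀ (g : D.grp K) i t, (g.1.1 = D.x i t → (f g).1.1 = D'.x (ε i) t) ∧
    (g.1.1 = D.y i t → (f g).1.1 = D'.y (ε i) t)

/-- The simply connected group maps to every group with the same Cartan matrix. -/
def HOM : Prop :=
  ∀ (D D' : Chev) (ε : Fin D.r ≃ Fin D'.r), SC D → (∀ i j, D'.A (ε i) (ε j) = D.A i j) →
    ∀ (K : Type) [Field K], ∃ f : D.grp K →* D'.grp K, Pin ε f

/-- The Chevalley group is Zariski closed in the space of all matrices. -/
def CL : Prop :=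
  ∀ D : Chev, SC D → ∀ (K : Type) [Field K] [Infinite K] (F : Type) [Field F] [Algebra K F]
    (M : Matrix (Fin D.n) (Fin D.n) F),
    (∀ p, Van K (D.grp K) p → MvPolynomial.aeval (fun e => M e.1 e.2) p = 0) ↔
      ∃ g ∈ D.grp F, g.1 = M

/-- A representation which is polynomial on the simple root subgroups is polynomial. -/
def POL : Prop :=
  ∀ D : Chev, SC D → ∀ (K : Type) [Field K] [Infinite K] (J : Type) [Fintype J] [DecidableEq J]
    (ρ : D.grp K →* Matrix J J K),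
    (∀ i a b, ∃ p q : Polynomial K, ∀ t, ρ ((GG D K).x (D.α i) t) a b = p.eval t ∧
      ρ ((GG D K).x (-D.α i) t) a b = q.eval t) →
    ∀ a b, ∃ p : MvPolynomial (Fin D.n × Fin D.n) K, ∀ g : D.grp K,
      ρ g a b = MvPolynomial.eval (fun e => g.1.1 e.1 e.2) p

/-- The isomorphism theorem. -/
def ISO : Prop :=
  ∀ (D D' : Chev) (ε : Fin D.r ≃ Fin D'.r), SC D → SC D' → (∀ i j, D'.A (ε i) (ε j) = D.A i j) →
    ∀ (K : Type) [Field K], ∃ ψ : D.grp K ≃* D'.grp K, Pin ε ψ ∧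
      (Infinite K → Pol ψ ∧ Pol ψ.symm)

/-- Chevalley generators in a module with minuscule weights which span the weight lattice. -/
structure Min {I J : Type} [Fintype I] [DecidableEq I] [Fintype J] [DecidableEq J]
    (A : Matrix I I ℤ) (e f : I → Matrix J J ℤ) (μ : I → J → ℤ) : Prop where
  ee : ∀ i, e i * e i = 0
  ff : ∀ i, f i * f i = 0
  ef : ∀ i, e i * f i - f i * e i = diagonal (μ i)
  ef' : ∀ i j, i ≠ j → e i * f j = f j * e i
  he : ∀ i a b, e i a b ≠ 0 → ∀ j, μ j a = μ j b + A i j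
  hf : ∀ i a b, f i a b ≠ 0 → ∀ j, μ j a = μ j b - A i j
  sc : Submodule.span ℤ (Set.range fun (a : J) (i : I) => μ i a) = ⊤

/-- The group generated by the elements `1 + t e_i`, `1 + t f_i`. -/
def gen (K : Type) [Field K] {I J : Type} [Fintype J] [DecidableEq J] (e f : I → Matrix J J ℤ) :
    Subgroup (GL J K) :=
  Subgroup.closure {g | ∃ (i : I) (t : K), g.1 = 1 + t • (e i).map (Int.cast : ℤ → K) ∨
    g.1 = 1 + t • (f i).map (Int.cast : ℤ → K)}

/-- Such generators give a Chevalley datum. -/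
def MK : Prop :=
  ∀ (D : Chev) (n : ℕ) (e f : Fin D.r → Matrix (Fin n) (Fin n) ℤ) (μ : Fin D.r → Fin n → ℤ),
    Min D.A e f μ → ∃ (D' : Chev) (ε : Fin D.r ≃ Fin D'.r) (η : Fin n ≃ Fin D'.n), SC D' ∧
      (∀ i j, D'.A (ε i) (ε j) = D.A i j) ∧ ∀ (K : Type) [Field K] i (t : K),
        (D'.x (ε i) t).submatrix η η = 1 + t • (e i).map (Int.cast : ℤ → K) ∧
        (D'.y (ε i) t).submatrix η η = 1 + t • (f i).map (Int.cast : ℤ → K)

/-- `ψ` is an isomorphism of algebraic groups which is defined over the prime field. -/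
structure Iso {K : Type} [Field K] {m n : Type} [Fintype m] [DecidableEq m] [Fintype n]
    [DecidableEq n] {G : Subgroup (GL m K)} {H : Subgroup (GL n K)} (ψ : G ≃* H) : Prop where
  pol : Pol ψ
  pol' : Pol ψ.symm
  gal : ∀ (σ : K ≃+* K) (g g' : G), g'.1.1 = g.1.1.map σ → (ψ g').1.1 = (ψ g).1.1.map σ

/-- Recognition. -/
def REC : Prop :=
  ∀ D : Chev, SC D → ∀ (I J : Type) [Fintype I] [DecidableEq I] [Fintype J] [DecidableEq J]
    (A : Matrix I I ℤ) (e f : I → Matrix J J ℤ) (μ : I → J → ℤ) (ε : Fin D.r ≃ I),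
    (∀ i j, A (ε i) (ε j) = D.A i j) → Min A e f μ → ∀ (K : Type) [Field K] [Infinite K],
    ∃ ψ : D.grp K ≃* gen K e f, Iso ψ ∧ ∀ (g : D.grp K) i t,
      (g.1.1 = D.x i t → (ψ g).1.1 = 1 + t • (e (ε i)).map (Int.cast : ℤ → K)) ∧
      (g.1.1 = D.y i t → (ψ g).1.1 = 1 + t • (f (ε i)).map (Int.cast : ℤ → K))

/-- `D` has the Cartan matrix `A`. -/
def Ty (D : Chev) {I : Type} (A : Matrix I I ℤ) : Prop :=
  ∃ ε : Fin D.r ≃ I, ∀ i j, A (ε i) (ε j) = D.A i j

/-- Type `A`. -/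
def RA : Prop :=
  ∀ D : Chev, SC D → ∀ n, Ty D (CartanMatrix.A n) → ∀ (K : Type) [Field K] [Infinite K],
    ∃ ψ : D.grp K ≃* SA K (n + 1), Iso ψ

/-- Type `D₄`. -/
def RD : Prop :=
  ∀ D : Chev, SC D → Ty D (CartanMatrix.D 4) → ∀ (K : Type) [Field K] [IsAlgClosed K] [CharZero K],
    ∃ ψ : D.grp K ≃* SD K, Iso ψ

/-- Type `E₆`. -/
def RE : Prop :=
  ∀ D : Chev, SC D → Ty D CartanMatrix.E₆ → ∀ (K : Type) [Field K] [IsAlgClosed K] [CharZero K],
    ∃ ψ : D.grp K ≃* SE K, Iso ψ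

end Vale.Agent.P011UH
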