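import Vale.Agent.P011UH.Cell
import Vale.Agent.P011UH.IF
import Mathlib.RingTheory.Nullstellensatz
import Mathlib.RingTheory.TensorProduct.MvPolynomial
import Mathlib.FieldTheory.Finite.Polynomial

/-!
Chevalley groups are Zariski closed; a criterion for representations to be polynomial.
-/

set_option autoImplicit false
set_option linter.all false

namespace Vale.Agent.P011UH

open Matrix Finset Vale.Agent.P183CH Vale.Agent.P183CH.Chev Vale.Agent.P011U Vale.Agent.P011L

section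

variable {m K L L' : Type} [Field K] [CommRing L] [Algebra K L] [CommRing L'] [Algebra K L']

variable (K) in
/-- the value of a polynomial at a matrix -/
noncomputable def ev (x : Matrix m m L) : MvPolynomial (m × m) K →ₐ[K] L :=
  MvPolynomial.aeval fun e => x e.1 e.2

theorem ev_map (ρ : L →ₐ[K] L') (x : Matrix m m L) (p : MvPolynomial (m × m) K) :
    ev K (x.map ρ) p = ρ (ev K x p) := by
  rw [← AlgHom.comp_apply, ev, ev, MvPolynomial.comp_aeval]
  rfl

variable (m K) in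
/-- the generic matrix -/
noncomputable def gx : Matrix m m (MvPolynomial (m × m) K) := of fun a b => .X (a, b)

theorem gx_map (x : Matrix m m L) : (gx m K).map (ev K x) = x := by
  ext a b
  exact MvPolynomial.aeval_X _ _

theorem ev_eq (x : Matrix m m K) (p : MvPolynomial (m × m) K) :
    ev K x p = MvPolynomial.eval (fun e => x e.1 e.2) p := 
  DFunLike.congr_fun (MvPolynomial.coe_aeval_eq_eval _) p

theorem map_alg (ρ : L →ₐ[K] L') (x : Matrix m m K) :
    (x.map (algebraMap K L)).map ρ = x.map (algebraMap K L') :=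
  Matrix.ext fun _ _ => ρ.commutes _

theorem ev_mul [Fintype m] (y : Matrix m m K) (x : Matrix m m L) :
    ((gx m K) * y.map (algebraMap K _)).map (ev K x) = x * y.map (algebraMap K L) ∧
    (y.map (algebraMap K _) * (gx m K)).map (ev K x) = y.map (algebraMap K L) * x := by
  rw [Matrix.map_mul, Matrix.map_mul, gx_map, map_alg]
  exact ⟨rfl, rfl⟩

theorem dec {F : Type} [Field F] [Algebra K F] (q : MvPolynomial (m × m) F) :
    ∃ (ι : Type) (b : Module.Basis ι K F) (c : ι →₀ MvPolynomial (m × m) K),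
      ∀ x : Matrix m m F, ev F x q = ∑ i ∈ c.support, ev K x (c i) * b i := by
  obtain ⟨T, rfl⟩ := (MvPolynomial.algebraTensorAlgEquiv K F).surjective q
  obtain ⟨c, rfl⟩ := TensorProduct.eq_repr_basis_left (Module.Basis.ofVectorSpace K F) T
  refine ⟨_, Module.Basis.ofVectorSpace K F, c, fun x => ?_⟩
  simp only [Finsupp.sum, map_sum, MvPolynomial.algebraTensorAlgEquiv_tmul, map_smul, smul_eq_mul,
    ev, MvPolynomial.aeval_map_algebraMap, mul_comm]

end

variable {D : Chev} {K : Type} [Field K]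

variable (D K) in
/-- the matrices with nonzero principal minors -/
abbrev Om : Type := {M : D.Mat K // dl (bt D) M ≠ 0}

variable (D K) in
/-- the regular functions -/
noncomputable def Rg : Subalgebra K (Om D K → K) :=
  Algebra.adjoin K ({F | ∃ a b, F = fun M => M.1 a b} ∪ {fun M => (dl (bt D) M.1)⁻¹})

theorem ev_dl {L : Type} [CommRing L] [Algebra K L] (M : D.Mat L) (Q : D.Mat _) :
    ev K M (dl (bt D) Q) = dl (bt D) (Q.map (ev K M)) := (dl_map (ev K M).toRingHom Q).symm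

theorem rg_spec {F : Om D K → K} (h : F ∈ Rg D K) :
    ∃ (N : ℕ) (p : MvPolynomial _ K), ∀ M : Om D K, F M * dl (bt D) M.1 ^ N = ev K M.1 p := by
  induction h using Algebra.adjoin_induction with
  | mem x hx =>
    obtain ⟨a, b, rfl⟩ | rfl := hx
    · exact ⟨0, .X (a, b), fun M => by simp [ev]⟩
    · exact ⟨1, 1, fun M => by simp [M.2]⟩
  | algebraMap c => exact ⟨0, .C c, fun M => by simp [ev]⟩
  | add x y _ _ hx hy =>
    obtain ⟨N, p, hp⟩ := hx
    obtain ⟨N', q, hq⟩ := hy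
    refine ⟨N + N', p * dl (bt D) (gx _ K) ^ N' + q * dl (bt D) (gx _ K) ^ N, fun M => ?_⟩
    simp only [map_add, map_mul, map_pow, ev_dl, gx_map, ← hp, ← hq, Pi.add_apply]
    ring
  | mul x y _ _ hx hy =>
    obtain ⟨N, p, hp⟩ := hx
    obtain ⟨N', q, hq⟩ := hy
    refine ⟨N + N', p * q, fun M => ?_⟩
    simp only [map_mul, ← hp, ← hq, Pi.mul_apply]
    ring

theorem ent_id : Ent (Rg D K) fun M => M.1 := fun a b => Algebra.subset_adjoin (.inl ⟨a, b, rfl⟩)

/-- coordinates on the big cell -/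
theorem bc [Infinite K] (hD : SC D) : ∃ f ∈ RM D (Rg D K),
    ∀ (g : D.grp K) (h : dl (bt D) g.1.1 ≠ 0), f ⟨g.1.1, h⟩ = g := by
  let X : D.Mat (Rg D K) := of fun a b => ⟨_, ent_id a b⟩
  let e (M : Om D K) : Rg D K →+* K := (Pi.evalRingHom _ M).comp (Rg D K).val.toRingHom
  have he : ∀ Y : D.Mat (Rg D K), Ent (Rg D K) fun M => Y.map (e M) := fun Y a b => (Y a b).2
  obtain ⟨P, h1, h2, h3⟩ := ldu (M := X) bt_inj (IsUnit.of_mul_eq_one
    ⟨_, Algebra.subset_adjoin (.inr rfl)⟩ (Subtype.ext (funext fun M =>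
      (congrArg (· * (dl (bt D) M.1)⁻¹) (dl_map (e M) X).symm).trans (mul_inv_cancel₀ M.2))))
  choose d hd using h3
  obtain ⟨m, -, hm⟩ := exists_n0 (D := D) (K := K)
  obtain ⟨c, hc⟩ := hD.coord
  obtain ⟨f, hf, f1⟩ := peelU (((ent_const m.1.1).mul (he P)).mul (ent_const m⁻¹.1.1))
  obtain ⟨f', hf', f2⟩ := peelU (he (diagonal (fun a => (d a)⁻¹.1) * (P * X)))
  let s (M : Om D K) (i : Fin D.r) : Kˣ := Units.map (e M).toMonoidHom (∏ a, d a ^ c i a)
  refine ⟨_, mul_mem (mul_mem (inv_mem (mul_mem (mul_mem (rm_const m⁻¹) hf) (rm_const m)))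
    (rm_hT (s := s) (fun i => (∏ a, d a ^ c i a).1.2) fun i => (∏ a, d a ^ c i a)⁻¹.1.2)) hf',
    fun g h => ?_⟩
  have a0 : ∀ {β} {Y : D.Mat (Rg D K)}, Fl β 0 Y → Fl β 0 (Y.map (e ⟨_, h⟩)) :=
    fun k a b e' => k a b fun e'' => e' (by rw [map_apply, e'', map_zero])
  have a1 : (P * X).map (e ⟨_, h⟩) = P.map (e ⟨_, h⟩) * g.1.1 := Matrix.map_mul
  have a2 : ∀ a, (P.map (e ⟨_, h⟩) * g.1.1) a a = (Units.map (e ⟨_, h⟩).toMonoidHom (d a)).1 :=
    fun a => by rw [← a1, map_apply, ← hd]; rfl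
  obtain ⟨v, hv, t, ht, u, hu, b1, b2⟩ := cell g h (P := P.map (e ⟨_, h⟩))
    ⟨fun a => by rw [map_apply, h1.dg, map_one], a0 h1.fl⟩ (a1 ▸ a0 h2)
    fun a => a2 a ▸ Units.ne_zero _
  obtain ⟨τ, rfl⟩ := GG_ok.exists_hT ht
  rw [b2, ← val_mul, b1, val_mul, hT_val] at a1 a2
  have a3 : ∀ a, Units.map (e ⟨_, h⟩).toMonoidHom (d a) = ∏ i, τ i ^ D.μ i a := fun a =>
    Units.ext (by rw [← a2, diagonal_mul, (up_U hu).2, mul_one])
  have a4 : s ⟨_, h⟩ = τ := funext fun i => by simp only [s, map_prod, map_zpow, a3, hc]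
  have a5 := f2 ⟨_, h⟩ u hu (by
    rw [Matrix.map_mul, a1, diagonal_map (map_zero _), ← Matrix.mul_assoc, diagonal_mul_diagonal]
    simp only [← a3]
    rw [show (fun a => e ⟨_, h⟩ (d a)⁻¹.1 * (Units.map (e ⟨_, h⟩).toMonoidHom (d a)).1) = fun _ => 1
      from funext fun a => (Units.map (e ⟨_, h⟩).toMonoidHom (d a)).inv_mul, diagonal_one, one_mul])
  have a6 := f1 ⟨_, h⟩ _ ((hm v).2.1 hv) (by rw [b2]; rfl)
  simp only [Pi.mul_apply, Pi.inv_apply, a4, a5, a6]
  rw [mul_assoc _ _ u, ← b1]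
  group

theorem det_grp (g : D.grp K) : g.1.1.det = 1 := by
  have : ⊤ ≤ ((detMonoidHom.comp (D.nat K)).toHomUnits).ker := by
    rw [← (GG_ok (D := D) (k := K)).gen, Subgroup.closure_le]
    rintro _ ⟨i, t, rfl | rfl⟩
    · have := up_U (RG.x_mem (Γ := GG D K) (S := {γ | 0 ≤ γ}) ((R_ok D).simple i) (RS.α_nonneg i) t)
      exact Units.ext ((det_tr (bt D) fun a b e => or_iff_not_imp_left.2 fun c => lt_of_le_of_ne
        (by simpa using this.1 a b e) fun e => c (bt_inj e.symm)).trans (prod_eq_one fun a _ => this.2 a))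
    · have := lo_V (RG.x_mem (Γ := GG D K) (S := {γ | γ ≤ 0}) ((R_ok D).neg_mem ((R_ok D).simple i))
        (neg_nonpos.2 (RS.α_nonneg i)) t)
      exact Units.ext ((det_tr (-bt D) fun a b e => or_iff_not_imp_left.2 fun c => lt_of_le_of_ne
        (by simpa using this.2 a b e) fun e => c (neg_inj' bt_inj e.symm)).trans (prod_eq_one fun a _ => this.1 a))
  exact congrArg Units.val (this (Subgroup.mem_top g))

variable (K) in
/-- the Zariski closure -/
def Zc {L : Type} [CommRing L] [Algebra K L] (M : D.Mat L) : Prop :=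
  ∀ p, (∀ g : D.grp K, ev K g.1.1 p = 0) → ev K M p = 0

section

variable {L : Type} [CommRing L] [Algebra K L] {M : D.Mat L}

theorem Zc.sub (h : Zc K M) (Q : D.Mat (MvPolynomial _ K))
    (hQ : ∀ g : D.grp K, ∃ g' : D.grp K, Q.map (ev K g.1.1) = g'.1.1) : Zc K (Q.map (ev K M)) :=
  fun p hp => by
  rw [ev_map]
  refine h _ fun g => ?_
  obtain ⟨g', e⟩ := hQ g
  rw [← ev_map, e, hp]

theorem Zc.mul (h : Zc K M) (g : D.grp K) : Zc K (g.1.1.map (algebraMap K L) * M) :=
  (ev_mul g.1.1 M).2 ▸ h.sub _ fun x => ⟨g * x, (ev_mul g.1.1 x.1.1).2⟩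

theorem Zc.det (h : Zc K M) : M.det = 1 := by
  have e : ∀ {L : Type} [CommRing L] [Algebra K L] (M : D.Mat L),
      ev K M ((gx _ K).det - 1) = M.det - 1 := fun M => by
    rw [map_sub, AlgHom.map_det, AlgHom.mapMatrix_apply, gx_map, map_one]
  rw [← sub_eq_zero, ← e]
  exact h _ fun g => by rw [e, det_grp, sub_self]

theorem Zc.adj (h : Zc K M) : Zc K M.adjugate := by
  have e : ∀ {L : Type} [CommRing L] [Algebra K L] (M : D.Mat L),
      (gx _ K).adjugate.map (ev K M) = M.adjugate := fun M => by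
    rw [← AlgHom.mapMatrix_apply, AlgHom.map_adjugate, AlgHom.mapMatrix_apply, gx_map]
  exact e M ▸ h.sub _ fun g => ⟨g⁻¹, (e _).trans (Units.inv_eq_of_mul_eq_one_right
    (by rw [mul_adjugate, det_grp, one_smul])).symm⟩

end

variable {F : Type} [Field F] [Algebra K F]

theorem Zc.van {M : D.Mat F} (h : Zc K M) {q : MvPolynomial _ F}
    (hq : ∀ g : D.grp K, ev F (g.1.1.map (algebraMap K F)) q = 0) : ev F M q = 0 := by
  obtain ⟨ι, b, c, e⟩ := dec (K := K) q
  rw [e]
  refine sum_eq_zero fun i hi => ?_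
  rw [h _ fun g => linearIndependent_iff'.1 b.linearIndependent _ (fun i => ev K g.1.1 (c i)) ?_ i hi,
    zero_mul]
  rw [← hq g, e]
  exact sum_congr rfl fun i _ => by
    rw [Algebra.smul_def]
    exact congrArg (· * _) (ev_map (Algebra.ofId K F) _ _).symm

theorem Zc.up {M : D.Mat F} (h : Zc K M) : Zc F M :=
  fun _ hq => h.van fun g => hq (fm D (algebraMap K F) g)

theorem Zc.exists {M : D.Mat F} (h : Zc K M) :
    ∃ g : D.grp K, dl (bt D) (g.1.1.map (algebraMap K F) * M) ≠ 0 := by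
  by_contra! c
  have := h.adj.van (q := dl (bt D) (gx _ F * M.map (algebraMap F _))) fun g => by
    rw [ev_dl, (ev_mul M _).1]
    exact c g
  rw [ev_dl, (ev_mul M _).1] at this
  change dl _ (M.adjugate * M) = 0 at this
  rw [adjugate_mul, h.det, one_smul, dl_one] at this
  exact one_ne_zero this

theorem Zc.mem [Infinite F] (hD : SC D) {M : D.Mat F} (h : Zc F M) : ∃ g : D.grp F, g.1.1 = M := by
  obtain ⟨g, hg⟩ := h.exists
  obtain ⟨f, hf, e⟩ := bc (K := F) hD
  refine ⟨g⁻¹ * f ⟨_, hg⟩, ?_⟩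
  have : (f ⟨_, hg⟩).1.1 = g.1.1.map (algebraMap F F) * M := Matrix.ext fun a b => by
    obtain ⟨N, p, hp⟩ := rg_spec ((Rg D F).sub_mem (ent_rm (D.nat F) nat_pol hf a b) (ent_id a b))
    have := h.mul g (p * dl (bt D) (gx _ F)) fun x => by
      rw [map_mul, ev_dl, gx_map, mul_eq_zero, or_iff_not_imp_right]
      intro hx
      rw [← hp ⟨_, hx⟩]
      exact mul_eq_zero_of_left (sub_eq_zero.2 (congrArg (fun y : D.grp F => y.1.1 a b) (e x hx))) _
    rw [map_mul, ev_dl, gx_map, ← hp ⟨_, hg⟩] at this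
    exact sub_eq_zero.1 (eq_zero_of_ne_zero_of_mul_right_eq_zero (pow_ne_zero N hg)
      (eq_zero_of_ne_zero_of_mul_right_eq_zero hg this))
  rw [val_mul, this]
  exact g.1.inv_mul_cancel_left M

theorem zc_grp [Infinite K] (g : D.grp F) : Zc K g.1.1 := by
  have key : ∀ γ ∈ D.R.Φ, ∀ t (M : D.Mat F), Zc K M → Zc K (((GG D F).x γ t).1.1 * M) := by
    intro γ hγ t M h p hp
    have e : ∀ t, ev K (((GG D F).x γ t).1.1 * M) p = Polynomial.eval t
        (ev K (xm (D.EE γ) Polynomial.X * M.map Polynomial.C) p) := fun t => by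
      rw [← Polynomial.coe_aeval_eq_eval]
      refine Eq.trans ?_ (ev_map ((Polynomial.aeval (R := F) t).restrictScalars K) _ p)
      congr 2
      refine Eq.trans ?_ (Matrix.map_mul (f := Polynomial.evalRingHom t)).symm
      congr 1
      · refine (GG_mat.x_eq γ hγ t).trans ?_
        simpa using (xm_map (Polynomial.evalRingHom t) (D.EE γ) Polynomial.X).symm
      · ext a b
        simp
    rw [e]
    refine (congrArg _ (Polynomial.eq_zero_of_infinite_isRoot _ ((Set.infinite_range_of_injective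
      (algebraMap K F).injective).mono ?_))).trans Polynomial.eval_zero
    rintro _ ⟨s, rfl⟩
    refine (e _).symm.trans ?_
    rw [← fm_x]
    exact h.mul _ p hp
  have hg : g ∈ _ := (GG_ok (D := D) (k := F)).gen ▸ Subgroup.mem_top g
  induction hg using Subgroup.closure_induction_left with
  | one =>
    intro p hp
    have := congrArg (Algebra.ofId K F) (hp 1)
    rw [← ev_map, map_zero] at this
    exact (congrArg (ev K · p) (Matrix.map_one _ (map_zero _) (map_one _)).symm).trans this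
  | mul_left x hx y _ hy =>
    obtain ⟨i, t, rfl | rfl⟩ := hx
    · exact key _ ((R_ok D).simple i) t _ hy
    · exact key _ ((R_ok D).neg_mem ((R_ok D).simple i)) t _ hy
  | inv_mul_cancel x hx y _ hy =>
    obtain ⟨i, t, rfl | rfl⟩ := hx
    · rw [← GG_ok.x_neg ((R_ok D).simple i)]
      exact key _ ((R_ok D).simple i) _ _ hy
    · rw [← GG_ok.x_neg ((R_ok D).neg_mem ((R_ok D).simple i))]
      exact key _ ((R_ok D).neg_mem ((R_ok D).simple i)) _ _ hy

theorem zc_iff [Infinite K] (hD : SC D) {M : D.Mat F} : Zc K M ↔ ∃ g : D.grp F, g.1.1 = M :=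
  haveI := Infinite.of_injective _ (algebraMap K F).injective
  ⟨fun h => h.up.mem hD, fun ⟨g, e⟩ => e ▸ zc_grp g⟩

theorem cl : CL := fun D hD K _ _ F _ _ M => by
  refine ⟨fun h => ?_, fun ⟨g, hg, e⟩ p hp => (zc_iff (K := K) hD).2 ⟨⟨g, hg⟩, e⟩ p
    fun g => hp g.1 g.2⟩
  obtain ⟨g, e⟩ := (zc_iff (K := K) (M := M) hD).1 fun p hp => h p fun g hg => hp ⟨g, hg⟩
  exact ⟨g.1, g.2, e⟩

theorem pts_eq [Infinite K] (hD : SC D) : Pts K (D.grp K) F = D.grp F :=
  le_antisymm ((Subgroup.closure_le _).2 fun g h => by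
    obtain ⟨g', a, b⟩ := (cl D hD K F g.1).1 h
    exact Units.ext b ▸ a) fun g hg => Subgroup.subset_closure ((cl D hD K F g.1).2 ⟨g, hg, rfl⟩)

end Vale.Agent.P011UH
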