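import Vale.Agent.P011LA.A1
import Vale.Agent.P011LT.T1

/-!
The automorphisms of the algebraic group `SL_n`, including `n = 2`.
-/

set_option linter.all false

open Matrix Matrix.SpecialLinearGroup
open Function hiding swap
open Equiv hiding trans symm refl

namespace Vale.Agent.P011UH

open Vale.Agent.P011L Vale.Agent.P011LT
open Vale.Agent.P011LA hiding core wt_diag a1'

variable {K : Type} [Field K] {n : ℕ}

theorem braid {i j : Fin n} (h : i ≠ j) :
    transvection h (1 : K) * transvection h.symm (-1) * transvection h 1 =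
      transvection h.symm (-1) * transvection h 1 * transvection h.symm (-1) := Subtype.ext (by
  simp [transvection_coe, mul_add, add_mul, single_mul_single_of_ne _ _ _ _ h,
    single_mul_single_of_ne _ _ _ _ h.symm, ← single_neg]
  abel)

theorem core [Infinite K] (hn : 2 ≤ n) (ρ : SpecialLinearGroup (Fin n) K →* Matrix (Fin n) (Fin n) K)
    (hτ : ∀ t, ρ (tau t) = diagonal fun i => ch (wt i) t)
    (hp : ∀ i j (h : i ≠ j) a b, (fun s => ρ (transvection h s) a b) ∈ P1 K) (hi : Injective ρ) :
    ∃ d : GL (Fin n) K, ∀ g, ρ g * d.1 = d.1 * g.1 := by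
  have h1 : ∀ i j, ∃ c : K, c ≠ 0 ∧ ∀ (h : i ≠ j) s,
      ρ (transvection h s) = (transvection h (s * c)).1 := fun i j => by
    by_cases h : i = j
    · exact ⟨1, one_ne_zero, fun a => absurd h a⟩
    obtain ⟨e, a, b⟩ := shape (w := wt) (α := wt i - wt j) (hp i j h) (by simp) (fun t s => by
      rw [← hτ, ← map_mul, ← map_mul]
      refine congrArg ρ (Subtype.ext ?_)
      simp only [SpecialLinearGroup.coe_mul, transvection_coe, tau_val, mul_add, add_mul, mul_one,
        one_mul, diagonal_mul_single, single_mul_diagonal, ch_sub]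
      rw [div_mul_eq_mul_div, div_mul_cancel₀ _ (ch_ne _ _)]) fun a b m hm e => by
        have := congrFun e i
        simp only [Pi.add_apply, Pi.smul_apply, Pi.sub_apply, wt_apply, if_neg h] at this
        rw [nsmul_eq_mul] at this
        have h2 : (2 : ℤ) ≤ m := by exact_mod_cast hm
        have h3 : (2 : ℤ) ≤ n := by exact_mod_cast hn
        split_ifs at this <;> nlinarith
    have c : e = single i j (e i j) := by
      ext p q
      by_cases h2 : e p q = 0
      · rw [single_apply]
        split_ifs with h3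
        · rw [h3.1, h3.2]
        · exact h2
      · have h3 := congrFun (b p q h2) i
        have h4 := congrFun (b p q h2) j
        simp only [Pi.add_apply, Pi.sub_apply, wt_apply, if_neg h, if_neg (Ne.symm h)] at h3 h4
        obtain rfl : i = p := by split_ifs at h3 <;> omega
        obtain rfl : j = q := by split_ifs at h4 <;> omega
        simp
    refine ⟨e i j, fun h0 => ?_, fun _ s => by rw [a, c, transvection_coe]; simp⟩
    have := congrFun (congrFun (congrArg Subtype.val (hi ((a 1).trans (by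
      rw [c, h0, single_zero, smul_zero, add_zero, ρ.map_one] : _ = ρ 1)))) i) j
    simp [transvection_coe, h] at this
  choose c c0 hc using h1
  have h2 : ∀ i j k, i ≠ j → j ≠ k → i ≠ k → c i j * c j k = c i k := fun i j k a b d => by
    have h3 := congrArg ρ (tv_comm a b d 1 1)
    simp only [map_mul, hc, one_mul, ← SpecialLinearGroup.coe_mul] at h3
    have h4 := mul_right_cancel ((tv_comm a b d _ _).symm.trans (Subtype.ext h3))
    simpa [transvection_coe] using congrFun (congrFun (congrArg Subtype.val h4) i) k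
  let z : Fin n := ⟨0, by omega⟩
  let d : Fin n → K := fun i => if i = z then 1 else c i z
  have h3 : ∀ i j, i ≠ j → c i j * d j = d i := fun i j h => by
    by_cases a : i = z
    · simp only [d, ← a, if_neg h.symm, if_true]
      have h3 := congrArg ρ (braid h)
      simp only [map_mul, hc, one_mul, transvection_coe] at h3
      have h4 := congrFun (congrFun h3 i) j
      simp [mul_add, add_mul, single_mul_single_of_ne _ _ _ _ h,
        single_mul_single_of_ne _ _ _ _ h.symm, h, h.symm] at h4
      refine mul_right_cancel₀ (c0 i j) ?_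
      linear_combination -h4
    · by_cases b : j = z
      · simp [d, a, b]
      · simp only [d, if_neg a, if_neg b, h2 i j z h b a]
  haveI : Nontrivial (Fin n) := Fin.nontrivial_iff_two_le.2 (by omega)
  have h4 : ∀ i j (h : i ≠ j) s, ρ (transvection h s) * diagonal d =
      diagonal d * (transvection h s).1 := fun i j h s => by
    simp only [hc, transvection_coe, mul_add, add_mul, mul_one, one_mul, diagonal_mul_single,
      single_mul_diagonal, mul_assoc, h3 i j h, mul_comm (d i)]
  have h5 : ∀ A B : SpecialLinearGroup (Fin n) K, ρ A * diagonal d = diagonal d * A.1 →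
      ρ B * diagonal d = diagonal d * B.1 → ρ (A * B) * diagonal d = diagonal d * (A * B).1 :=
    fun A B a b => by
      rw [map_mul, mul_assoc, b, ← mul_assoc, a, mul_assoc, SpecialLinearGroup.coe_mul]
  refine ⟨GeneralLinearGroup.mkOfDetNeZero (diagonal d) ?_, fun g =>
    diagonal_transvection_induction' (fun g => ρ g * diagonal d = diagonal d * g.1) g
      (fun i j h x hx => ?_) h4 h5⟩
  · rw [det_diagonal]
    exact Finset.prod_ne_zero_iff.2 fun i _ => by simp only [d]; split_ifs <;> simp [c0]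
  · rw [diag_eq]
    exact h5 _ _ (h5 _ _ (h5 _ _ (h4 ..) (h4 ..)) (h4 ..)) (h5 _ _ (h5 _ _ (h4 ..) (h4 ..)) (h4 ..))

theorem wt_diag [Infinite K] (hn : 2 ≤ n)
    (ρ : SpecialLinearGroup (Fin n) K →* Matrix (Fin n) (Fin n) K) (ρ1 : Injective ρ)
    (ρ2 : ∀ a b, (fun t => ρ (tau t) a b) ∈ Sp K ⊤) : ∃ (m : ℤ) (s : GL (Fin n) K),
      ∀ t, ρ (tau t) * s.1 = s.1 * diagonal fun j => ch (m • wt j) t := by
  let z : Fin n := ⟨0, by omega⟩
  let z' : Fin n := ⟨1, by omega⟩
  have zz : z' ≠ z := by simp [z, z']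
  obtain ⟨y, y0, hy⟩ := exists_wt (ρ.comp tau) ρ2 (by
    by_contra h
    push Not at h
    have : wt z = 0 := ch_inj (K := K) (MonoidHom.ext fun t => by
      simpa [tau_val, ch_zero] using congrFun (congrFun (congrArg Subtype.val
        (ρ1 ((h t).trans ρ.map_one.symm))) z) z)
    simpa [wt_apply, zz] using congrFun this z')
  have hS := wt_perm z ρ
  have h0 : ∑ r, y r = 0 := zpow_inj (K := K) fun t => Units.ext (by
    obtain ⟨v, a, b⟩ := hy
    have h1 := b fun _ => t
    have h2 : tau (fun _ : Fin n => t) = 1 := Subtype.ext (by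
      refine (congrArg diagonal (funext fun i => ?_)).trans diagonal_one
      rw [ch_const]
      simp [wt_apply, Finset.sum_sub_distrib])
    rw [MonoidHom.comp_apply, h2, map_one, one_mulVec, ch_const] at h1
    simpa using (smul_left_injective K a ((one_smul K v).trans h1)).symm)
  obtain ⟨q, hq⟩ : ∃ q, y z ≠ y q := by
    by_contra h
    push Not at h
    rw [Finset.sum_congr rfl fun r _ => (h r).symm] at h0
    refine y0 (funext fun r => (h r).symm.trans ?_)
    simp at h0
    exact h0.resolve_left (by omega)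
  obtain ⟨i, hi⟩ := orb hS (fun w a b => by simpa using card_le a b) hy hq
  haveI : Nontrivial (Fin n) := Fin.nontrivial_iff_two_le.2 hn
  obtain ⟨j, hj⟩ := exists_ne i
  obtain ⟨m, rfl⟩ : ∃ m : ℤ, y = m • wt i := ⟨-y j, funext fun r => by
    rw [← Finset.add_sum_erase _ _ (Finset.mem_univ i),
      Finset.sum_congr rfl fun r h => hi r j (Finset.ne_of_mem_erase h) hj] at h0
    simp only [Finset.sum_const, Finset.card_erase_of_mem (Finset.mem_univ i), Finset.card_univ,
      Fintype.card_fin, nsmul_eq_mul, Nat.cast_sub (show 1 ≤ n by omega)] at h0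
    simp only [Pi.smul_apply, wt_apply, smul_eq_mul]
    split_ifs with e
    · rw [e]; push_cast at h0; linarith
    · rw [hi r j e hj]; ring⟩
  have m0 : m ≠ 0 := fun e => y0 (by rw [e, zero_smul])
  refine ⟨m, exists_diag (fun i j e => ?_) fun j => ?_⟩
  · have := congrFun e i
    simp only [Pi.smul_apply, wt_apply, smul_eq_mul, mul_eq_mul_left_iff, m0, or_false] at this
    split_ifs at this <;> omega
  · have := hS _ (swap i j) hy
    rwa [show (m • wt i) ∘ swap i j = m • (wt i ∘ swap i j) from rfl, wt_comp, symm_swap,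
      swap_apply_left] at this

theorem a1' [Infinite K] (hn : 2 ≤ n)
    (ρ : SpecialLinearGroup (Fin n) K →* Matrix (Fin n) (Fin n) K) (ρ1 : Injective ρ)
    (hψ : ∀ a b, ∃ p : MvPolynomial (Fin n × Fin n) K, ∀ g,
      ρ g a b = MvPolynomial.eval (fun e => g.1 e.1 e.2) p)
    (hψ' : ∀ a b, ∃ p : MvPolynomial (Fin n × Fin n) K, ∀ g,
      g.1 a b = MvPolynomial.eval (fun e => ρ g e.1 e.2) p) :
    ∃ u : GL (Fin n) K, (∀ g, ρ g * u.1 = u.1 * g.1) ∨ ∀ g, ρ g * u.1 = u.1 * (g⁻¹).1ᵀ := by
  have ρ2 : ∀ {Z : Type} (A : Subalgebra K (Z → K)) (f : Z → SpecialLinearGroup (Fin n) K),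
      (∀ a b, (fun z => (f z).1 a b) ∈ A) → ∀ a b, (fun z => ρ (f z) a b) ∈ A :=
    fun A f h a b => by
      obtain ⟨p, hp⟩ := hψ a b
      rw [funext fun z => hp (f z)]
      exact pol_mem A (f := fun (e : Fin n × Fin n) z => (f z).1 e.1 e.2) (fun e => h e.1 e.2) p
  have ρ3 : ∀ i j (h : i ≠ j) (c : K) a b, (fun s => ρ (transvection h (s * c)) a b) ∈ P1 K :=
    fun i j h c => ρ2 _ _ fun a b => by
      have : (fun s : K => (transvection h (s * c)).1 a b) =
          fun s => (1 : Matrix _ _ K) a b + s * single i j c a b := funext fun s => by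
        simp [transvection_coe, single_apply]
      exact this ▸ lin_P1 _ _
  obtain ⟨m, s, hs⟩ := wt_diag hn ρ ρ1 (ρ2 _ _ (diag_mem fun _ => trivial))
  have hs' : ∀ t, cjh s (ρ (tau t)) = diagonal fun j => ch (m • wt j) t := fun t =>
    (mul_assoc _ _ _).trans ((congrArg _ (hs t)).trans (Units.inv_mul_cancel_left _ _))
  have hm : m ∣ -1 := by
    let z : Fin n := ⟨0, by omega⟩
    let z' : Fin n := ⟨1, by omega⟩
    have zz : z' ≠ z := by simp [z, z']
    obtain ⟨p, hp⟩ := hψ' z z
    let Y : AddSubgroup (Fin n → ℤ) := (AddSubgroup.zmultiples m).comap (Pi.evalAddMonoidHom _ z')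
    have h1 := pol_mem (Sp K Y) (fun e : Fin n × Fin n => conj_mem (Sp K Y)
      (diag_mem (w := fun j => m • wt j) fun j => Int.mem_zmultiples_iff.2 (Dvd.intro _ rfl))
      s.1 (s⁻¹).1 e.1 e.2) p
    simp only [← hs, Units.mul_inv_cancel_right, ← hp, tau_val, diagonal_apply_eq] at h1
    simpa [wt_apply, zz] using (Int.mem_zmultiples_iff.1 (mem_of_Sp h1) : m ∣ wt z z')
  have fin : ∀ θ : SpecialLinearGroup (Fin n) K →* SpecialLinearGroup (Fin n) K, Injective θ →
      (∀ t, cjh s (ρ (θ (tau t))) = diagonal fun j => ch (wt j) t) →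
      (∀ i j (h : i ≠ j) a b, (fun s => ρ (θ (transvection h s)) a b) ∈ P1 K) →
      ∃ u : GL (Fin n) K, ∀ g, ρ (θ g) * u.1 = u.1 * g.1 := fun θ a b c => by
    obtain ⟨d, hd⟩ := core hn ((cjh s).comp (ρ.comp θ)) b (fun i j h => conj_mem _ (c i j h) _ _)
      ((cjh_inj s).comp (ρ1.comp a))
    refine ⟨s * d, fun g => ?_⟩
    rw [Units.val_mul, mul_assoc, ← hd g]
    simp only [cjh, MonoidHom.comp_apply, MonoidHom.coe_mk, OneHom.coe_mk, mul_assoc,
      Units.mul_inv_cancel_left]
  rcases Int.isUnit_iff.1 (isUnit_of_dvd_unit hm isUnit_one.neg) with rfl | rfl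
  · obtain ⟨u, hu⟩ := fin (.id _) injective_id (by simpa using hs') fun i j h => by
      simpa using ρ3 i j h 1
    exact ⟨u, .inl hu⟩
  · obtain ⟨u, hu⟩ := fin itr (LeftInverse.injective itr_itr) (fun t => by
      rw [itr_of (h := tau t⁻¹) (by rw [← map_inv, tau_val, diagonal_transpose]), hs']
      simp [ch_inv, ch_neg]) fun i j h => by
      have : ∀ s : K, itr (transvection h s) = transvection h.symm (s * -1) := fun s => itr_of (by
        rw [transvection_inv]; simp [transvection_coe])
      simpa only [this] using ρ3 j i h.symm (-1)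
    refine ⟨u, .inr fun g => ?_⟩
    have := hu (itr g)
    rwa [itr_itr] at this

theorem a1g [Infinite K] (hn : 2 ≤ n) (ψ : SA K n ≃* SA K n) (hψ : Pol ψ) (hψ' : Pol ψ.symm) :
    ∃ s : GL (Fin n) K, (∀ g, (ψ g).1.1 * s.1 = s.1 * g.1.1) ∨
      ∀ g, (ψ g).1.1 * s.1 = s.1 * (g⁻¹).1.1ᵀ := by
  let ι : SpecialLinearGroup (Fin n) K →* SA K n := toGL.codRestrict _ fun g => Units.ext g.2
  have ι1 : Injective ι := fun g h e => Subtype.ext (congrArg (·.1.1) e)
  have ι2 : Surjective ι := fun g => ⟨⟨g.1.1, congrArg Units.val g.2⟩, Subtype.ext (Units.ext rfl)⟩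
  obtain ⟨u, hu⟩ := a1' hn (((Units.coeHom _).comp (SA K n).subtype).comp (ψ.toMonoidHom.comp ι))
    (Units.val_injective.comp (Subtype.val_injective.comp (ψ.injective.comp ι1)))
    (fun a b => (hψ a b).imp fun p h g => h (ι g)) fun a b => (hψ' a b).imp fun p h g => by
      have := h (ψ (ι g))
      rwa [ψ.symm_apply_apply] at this
  refine ⟨u, hu.imp (fun h g => ?_) fun h g => ?_⟩ <;> obtain ⟨g, rfl⟩ := ι2 g
  · exact h g
  · exact (h g).trans (by rw [← map_inv]; rfl)

theorem inn_two [Infinite K] (ψ : SA K 2 ≃* SA K 2) (hψ : Pol ψ) (hψ' : Pol ψ.symm) :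
    ∃ s : GL (Fin 2) K, ∀ g, (ψ g).1.1 * s.1 = s.1 * g.1.1 := by
  obtain ⟨s, h | h⟩ := a1g le_rfl ψ hψ hψ'
  · exact ⟨s, h⟩
  refine ⟨s * ⟨!![0, 1; -1, 0], !![0, -1; 1, 0], by simp [← one_fin_two], by simp [← one_fin_two]⟩,
    fun g => ?_⟩
  have e : (g⁻¹).1.1 = g.1.1.adjugate := Units.inv_eq_of_mul_eq_one_right (by
    rw [mul_adjugate, mem_SA.1 g.2, one_smul])
  rw [Units.val_mul, ← Matrix.mul_assoc, h, Matrix.mul_assoc, Matrix.mul_assoc, e, adjugate_fin_two]
  congr 1
  ext a b
  fin_cases a <;> fin_cases b <;> simp [mul_apply, Fin.sum_univ_two]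

/-- the special linear group is perfect -/
theorem perf2 [Infinite K] {S : Type} [CommMonoid S] (hn : 2 ≤ n) (χ : SA K n →* S)
    (g : SA K n) : χ g = 1 := by
  let τ : SpecialLinearGroup (Fin n) K →* SA K n := toGL.codRestrict _ fun x => mem_SA.2 x.2
  let ψ := (χ.comp τ).toHomUnits
  haveI : Nontrivial (Fin n) := Fin.nontrivial_iff_two_le.2 hn
  obtain ⟨a, ha⟩ : ∃ a : Kˣ, a ^ (2 : ℤ) ≠ 1 := by
    by_contra! c
    exact two_ne_zero (zpow_eq_one c)
  have h1 : ∀ (i j : Fin n) (h : i ≠ j) c, ψ (transvection h c) = 1 := by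
    intro i j h c
    have a2 : (a : K) * a - 1 ≠ 0 := fun e => ha (Units.ext (by
      rw [zpow_two, Units.val_mul, sub_eq_zero.1 e, Units.val_one]))
    obtain ⟨b, rfl⟩ : ∃ b, c = ((a : K) * a - 1) * b := ⟨_, (mul_div_cancel₀ c a2).symm⟩
    have e : diag2n h a.1 a.ne_zero * transvection h b =
        transvection h (((a : K) * a - 1) * b) * transvection h b * diag2n h a.1 a.ne_zero :=
      Subtype.ext (by
        simp only [SpecialLinearGroup.coe_mul, transvection_coe, diag2n_coe, mul_add, add_mul, mul_one,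
          one_mul, single_mul_single_of_ne _ _ _ _ h.symm, add_zero, diagonal_mul_single,
          single_mul_diagonal, add_assoc, ← single_add, Matrix.zero_mul]
        congr 2
        simp [h, h.symm]
        field_simp
        ring)
    have := congrArg ψ e
    rw [map_mul, map_mul, map_mul, mul_comm, mul_assoc] at this
    exact (mul_right_cancel ((one_mul _).trans this)).symm
  have h2 := diagonal_transvection_induction' (fun x => ψ x = 1)
    ⟨g.1.1, mem_SA.1 g.2⟩ (fun i j h c hc => by
      simp only [diag_eq, map_mul, h1, mul_one]) h1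
    fun a b c d => by simp only [map_mul, c, d, mul_one]
  have h3 : τ ⟨g.1.1, mem_SA.1 g.2⟩ = g := Subtype.ext (Units.ext rfl)
  exact h3 ▸ congrArg Units.val h2

end Vale.Agent.P011UH
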