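import Vale.Agent.P011LB.Md
import Vale.Agent.P011UH.A1

/-!
Inner forms of the special linear group: the algebra, and the map from the points to the algebra.
-/

set_option linter.all false

open Matrix TensorProduct

namespace Vale.Agent.P011UH

open Vale.Agent.P011L Vale.Agent.P011LT
open Vale.Agent.P011LB hiding th span_th exists_th

section

variable {k K m : Type} [Field k] [Field K] [Algebra k K] [Fintype m] [DecidableEq m]
  {G : Subgroup (GL m K)} {n : ℕ}

/-- the representation -/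
def th (φ : G ≃* SA K n) : G →* Mn n K :=
  (Units.coeHom _).comp ((SA K n).subtype.comp φ.toMonoidHom)

theorem th_inj (φ : G ≃* SA K n) : Function.Injective (th φ) :=
  fun _ _ e => φ.injective (Subtype.ext (Units.ext e))

theorem span_th (hn : 2 ≤ n) (φ : G ≃* SA K n) (S : Subalgebra K (Mn n K))
    (h : ∀ g, th φ g ∈ S) (x : Mn n K) : x ∈ S := by
  haveI : Nontrivial (Fin n) := Fin.nontrivial_iff_two_le.2 hn
  have h1 : ∀ i j : Fin n, i ≠ j → single i j 1 ∈ S := fun i j a => by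
    have := S.sub_mem (h (φ.symm ⟨(SpecialLinearGroup.transvection a (1 : K)).toGL,
      mem_SA.2 (SpecialLinearGroup.transvection a (1 : K)).2⟩)) S.one_mem
    simpa [th, SpecialLinearGroup.transvection_coe] using this
  have h4 : ∀ i j : Fin n, single i j 1 ∈ S := fun i j => by
    by_cases a : i = j
    · obtain ⟨l, b⟩ := exists_ne i
      simpa using S.mul_mem (h1 i l b.symm) (h1 l j (a ▸ b))
    · exact h1 i j a
  have e : x = ∑ i, ∑ j, x i j • single i j 1 := by simpa using matrix_eq_sum_single x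
  rw [e]
  exact S.sum_mem fun i _ => S.sum_mem fun j _ => S.smul_mem (h4 i j) _

variable (k) in
/-- the algebra of the form -/
structure Mi (φ : G ≃* SA K n) (A : Type) [Ring A] [Algebra k A] where
  j : A →ₐ[k] Mn n K
  bij : Function.Bijective (lf j : K ⊗[k] A →ₐ[K] Mn n K)
  fix : ∀ σ : K ≃ₐ[k] K, ∃ s : GL (Fin n) K, ∀ a, j a * s.1 = s.1 * (j a).map σ
  ι : Type
  s : Finset ι
  f : ι → Pl m k
  a : ι → A
  th : ∀ g, th φ g = ∑ i ∈ s, ev g.1.1 (f i) • j (a i)
  rat : ∀ g u, P011UH.th φ g = j u → ∀ σ : K ≃ₐ[k] K, g.1.1.map σ = g.1.1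

theorem exists_th [IsGalois k K] {φ : G ≃* SA K n} (h : Form k φ) :
    ∃ (ι : Type) (f : ι → Pl m k) (E : ι →₀ Mn n K),
      LinearIndependent K (fun a (g : G) => ev g.1.1 (f a)) ∧
      ∀ g, th φ g = ∑ i ∈ E.support, ev g.1.1 (f i) • E i := by
  obtain ⟨ι, f, E, a, b⟩ := P011LB.exists_th h
  refine ⟨ι, f, E.mapRange Prod.fst rfl, a, fun g => ?_⟩
  rw [Finset.sum_subset Finsupp.support_mapRange fun i _ e => by
    rw [Finsupp.notMem_support_iff.1 e, smul_zero]]
  exact (congrArg Prod.fst (b g)).trans (by simp [Prod.fst_sum])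

theorem inn_of_two [Infinite K] {φ : G ≃* SA K 2} (h : Form k φ) (σ : K ≃ₐ[k] K) : Inn φ ⊤ σ := by
  have sG : Stab k G := fun σ g a => ⟨_, stab_of h.1 σ a, rfl⟩
  obtain ⟨s, hs⟩ := inn_two
    (((gE (stab_SA k 2) σ).symm.trans (φ.symm.trans (gE sG σ))).trans φ)
    (pol_trans (pol_tw h.2.2 σ (fun _ => rfl) fun _ => rfl) h.2.1)
    (pol_trans h.2.2 (pol_tw (u := (gE sG σ).symm) (v := gE (stab_SA k 2) σ.symm.symm) h.2.1 σ
      (fun _ => rfl) fun _ => rfl))
  refine ⟨s, trivial, fun g g' b => ?_⟩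
  have := hs (gE (stab_SA k 2) σ (φ g))
  simp only [MulEquiv.trans_apply, MulEquiv.symm_apply_apply] at this
  rwa [show gE sG σ g = g' from Subtype.ext (Units.ext b.symm)] at this

theorem exists_mi [IsGalois k K] (hn : 2 ≤ n) {φ : G ≃* SA K n} (h : Form k φ)
    (ho : ∀ σ : K ≃ₐ[k] K, Inn φ ⊤ σ) :
    ∃ (A : Type) (_ : Ring A) (_ : Algebra k A), Nonempty (Mi k φ A) := by
  choose s hs hs using ho
  let p (σ : K ≃ₐ[k] K) := cj (s σ) σ
  have p1 : ∀ σ (c : K) x, p σ (c • x) = σ c • p σ x := fun σ => cj_smul _ _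
  have p3 : ∀ σ g, p σ (th φ g) = th φ (gs h.1 σ g) := fun σ g =>
    (s σ).isUnit.mul_right_cancel ((cj_mul _ _ _).trans (hs σ g _ rfl).symm)
  let A : Subalgebra k (Mn n K) :=
    { carrier := {x | ∀ σ, p σ x = x}
      mul_mem' := fun a b σ => by rw [map_mul, a σ, b σ]
      add_mem' := fun a b σ => by rw [map_add, a σ, b σ]
      algebraMap_mem' := fun c σ => by
        rw [IsScalarTower.algebraMap_apply k K, Algebra.algebraMap_eq_smul_one, p1, map_one,
          AlgEquiv.commutes] }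
  obtain ⟨ι, f, E, f1, e1⟩ := exists_th h
  have e2 : ∀ i, E i ∈ A := fun i σ => by
    by_cases hi : i ∈ E.support
    · refine sub_eq_zero.1 (uni f1 E.support (fun i => p σ (E i) - E i) (fun g => ?_) i hi)
      have := p3 σ (gs h.1 σ.symm g)
      rw [gs_symm, e1, e1, map_sum] at this
      simp only [smul_sub, Finset.sum_sub_distrib, ← this, sub_eq_zero]
      refine Finset.sum_congr rfl fun i _ => ?_
      rw [p1]
      congr 1
      exact ((ev_map (σ : K →ₐ[k] K) _ _).symm.trans (by rw [← gs_val h.1, gs_symm])).symm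
    · rw [Finsupp.notMem_support_iff.1 hi, map_zero]
  refine ⟨A, _, _, ⟨A.val, ⟨?_, fun x => ?_⟩, fun σ => ⟨s σ, fun a =>
    (congrArg (· * _) (a.2 σ).symm).trans (cj_mul _ _ _)⟩, ι, E.support, f, fun i => ⟨E i, e2 i⟩, e1,
    fun g u a τ => ?_⟩⟩
  · classical
    let b := Module.Basis.ofVectorSpace k A
    have b1 : LinearIndependent K (A.val ∘ b) := ind (fun σ => (p σ).toAddMonoidHom) p1
      (fun σ i => (b i).2 σ) (b.linearIndependent.map' A.val.toLinearMap
        (LinearMap.ker_eq_bot.2 Subtype.val_injective))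
    refine (injective_iff_map_eq_zero _).2 fun T hT => ?_
    obtain ⟨c, rfl⟩ := TensorProduct.eq_repr_basis_right b T
    rw [map_finsuppSum] at hT
    simp only [lf_tmul] at hT
    rw [linearIndependent_iff.1 b1 c hT, Finsupp.sum_zero_index]
  · refine span_th hn φ (lf A.val).range (fun g => ?_) x
    rw [e1]
    exact Subalgebra.sum_mem _ fun i _ => ⟨ev g.1.1 (f i) ⊗ₜ ⟨E i, e2 i⟩, lf_tmul _ _ _⟩
  · have := p3 τ g
    rw [a, show p τ (A.val u) = A.val u from u.2 τ, ← a] at this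
    exact congrArg (·.1.1) (th_inj φ this).symm

end

variable {k K m A L L' X X' : Type} [Field k] [Field K] [Algebra k K] [Fintype m] [DecidableEq m]
  {G : Subgroup (GL m K)} {n : ℕ} {φ : G ≃* SA K n} [Ring A] [Algebra k A]
  (M : Mi k φ A) [CommRing L] [Algebra k L] [CommRing L'] [Algebra k L']

namespace Mi

section

variable [AddCommGroup X] [Module L X] [AddCommGroup X'] [Module L' X']

/-- the image of a point -/
noncomputable def ps (w : A → X) (x : Matrix m m L) : X :=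
  ∑ i ∈ M.s, ev (k := k) x (M.f i) • w (M.a i)

theorem ps_nat (r : L →ₐ[k] L') (τ : X →+ X') {w : A → X} {w' : A → X'}
    (h : ∀ (c : L) a, τ (c • w a) = r c • w' a) (x : Matrix m m L) :
    τ (M.ps w x) = M.ps w' (x.map r) := by
  simp only [ps, map_sum, h, ev_map]

theorem pv_ps {T : Type} {𝒜 : Submonoid (T → L)} {u : T → Matrix m m L}
    (h : u ∈ PV 𝒜 (Matrix m m L)) (w : A → X) : (fun t => M.ps w (u t)) ∈ PV 𝒜 X :=
  pv_sum _ fun _ => pv_smul (pv_ev h _) (pv_const _)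

theorem ps_j (g : G) : M.ps M.j g.1.1 = P011UH.th φ g := (M.th g).symm

theorem inj : Function.Injective M.j := fun a b e =>
  Algebra.TensorProduct.includeRight_injective (algebraMap k K).injective (M.bij.1 (by
    simpa only [Algebra.TensorProduct.includeRight_apply, lf_tmul, one_smul] using e))

theorem j_ps (x : Matrix m m k) :
    M.j (M.ps (AlgHom.id k A) x) = M.ps M.j (x.map (Algebra.ofId k K)) :=
  M.ps_nat _ M.j.toRingHom.toAddMonoidHom (fun c a =>
    (map_smul M.j c a).trans (algebraMap_smul K c _).symm) x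

end

variable [Ring X] [Algebra k X] [Algebra L X] [IsScalarTower k L X]

theorem exists_gam (ι : K →ₐ[k] L) (w : A →ₐ[k] X) : ∃ γ : Mn n K →+* X, ∀ (s : A → A) x,
    γ (M.ps (fun a => M.j (s a)) x) = M.ps (fun a => w (s a)) (x.map ι) := by
  let l : K ⊗[k] A →ₐ[k] X := Algebra.TensorProduct.lift ((IsScalarTower.toAlgHom k L X).comp ι) w
    fun _ _ => Algebra.commute_algebraMap_left _ _
  let γ := l.toRingHom.comp (AlgEquiv.ofBijective _ M.bij).symm.toRingEquiv.toRingHom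
  refine ⟨γ, fun s => M.ps_nat ι γ.toAddMonoidHom fun c a => ?_⟩
  rw [← lf_tmul]
  exact (congrArg l ((AlgEquiv.ofBijective _ M.bij).symm_apply_apply (c ⊗ₜ s a))).trans
    (Algebra.smul_def (ι c) (w (s a))).symm

theorem tau (L : Type) [CommRing L] [Algebra k L] :
    ∃ τ : L ⊗[k] A →+* (K ⊗[k] L) ⊗[k] A, Function.Injective τ ∧ ∀ (s : A → A) (x : Matrix m m L),
      τ (M.ps (fun a => 1 ⊗ₜ s a) x) = M.ps (fun a => 1 ⊗ₜ s a)
        (x.map (Algebra.TensorProduct.includeRight : L →ₐ[k] K ⊗[k] L)) := by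
  let τ := Algebra.TensorProduct.map (Algebra.TensorProduct.includeRight : L →ₐ[k] K ⊗[k] L)
    (AlgHom.id k A)
  refine ⟨τ, Module.Flat.rTensor_preserves_injective_linearMap (M := A)
    (Algebra.TensorProduct.includeRight : L →ₐ[k] K ⊗[k] L).toLinearMap
    (Algebra.TensorProduct.includeRight_injective (algebraMap k K).injective),
    fun s => M.ps_nat _ τ.toRingHom.toAddMonoidHom fun c a => ?_⟩
  simp only [smul_tmul', smul_eq_mul, mul_one]
  rfl

theorem ps_lf (w : A →ₐ[k] X) (s : A → A) (x : Matrix m m L) :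
    lf w (M.ps (fun a => (1 : L) ⊗ₜ[k] s a) x) = M.ps (fun a => w (s a)) x :=
  M.ps_nat (AlgHom.id k L) (lf w : L ⊗[k] A →ₐ[L] X).toRingHom.toAddMonoidHom
    (fun c a => (map_smul (lf w) _ _).trans (by rw [lf_tmul, one_smul]; rfl)) x

variable [IsGalois k K] (e : Pts k G K = G)
include e

theorem ps_mul' (ι : K →ₐ[k] L) (w : A →ₐ[k] X) {x y : Matrix m m L} (hx : x ∈ Z k G L)
    (hy : y ∈ Z k G L) : M.ps w (x * y) = M.ps w x * M.ps w y := by
  obtain ⟨γ, h⟩ := M.exists_gam ι w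
  have h1 : ∀ g : G, M.ps w (g.1.1.map ι) = γ (P011UH.th φ g) := fun g =>
    (h id _).symm.trans (congrArg γ (M.ps_j g))
  have p0 := M.pv_ps (pv_id (k := k) (m := m) (L := L)) w
  have q1 := fun y : Matrix m m L => pv_mmul (pv_id (k := k) (m := m) (L := L)) (pv_const y)
  have q2 := fun y : Matrix m m L => pv_mmul (pv_const y) (pv_id (k := k) (m := m) (L := L))
  have p1 := fun y => pv_sub (M.pv_ps (q1 y) w) (pv_mul p0 (pv_const (M.ps w y)))
  have p2 := fun x => pv_sub (M.pv_ps (q2 x) w) (pv_mul (pv_const (M.ps w x)) p0)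
  refine sub_eq_zero.1 (ext₂ e ι (F := fun x y => M.ps w (x * y) - M.ps w x * M.ps w y) p1 p2
    (fun g hg g' hg' => ?_) x hx y hy)
  rw [← Matrix.map_mul, sub_eq_zero, h1 ⟨g, hg⟩, h1 ⟨g', hg'⟩, ← γ.map_mul,
    ← (P011UH.th φ).map_mul]
  exact h1 ⟨g * g', G.mul_mem hg hg'⟩

theorem ps_mul (w : A →ₐ[k] X) {x y : Matrix m m L} (hx : x ∈ Z k G L) (hy : y ∈ Z k G L) :
    M.ps w (x * y) = M.ps w x * M.ps w y := by
  obtain ⟨τ, h1, h2⟩ := M.tau L
  refine (M.ps_lf w id _).symm.trans (Eq.trans ?_ (congrArg₂ _ (M.ps_lf w id _) (M.ps_lf w id _)))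
  rw [← map_mul]
  refine congrArg _ (h1 ?_)
  rw [map_mul, h2, h2, h2, Matrix.map_mul]
  exact M.ps_mul' (L := K ⊗[k] L) e Algebra.TensorProduct.includeLeft
    (Algebra.TensorProduct.includeRight : A →ₐ[k] (K ⊗[k] L) ⊗[k] A) (Z_map _ hx) (Z_map _ hy)

omit e in
theorem ps_one (w : A →ₐ[k] X) : M.ps w (1 : Matrix m m L) = 1 := by
  have h1 := M.ps_nat (Algebra.ofId k L) w.toRingHom.toAddMonoidHom (w := AlgHom.id k A) (w' := w)
    (fun c a => (map_smul w c a).trans (algebraMap_smul L c _).symm) 1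
  have h2 : M.ps (AlgHom.id k A) (1 : Matrix m m k) = 1 := M.inj (by
    rw [M.j_ps, Matrix.map_one _ (map_zero _) (map_one _), map_one]
    exact (M.ps_j 1).trans (map_one _))
  rw [h2, Matrix.map_one _ (map_zero _) (map_one _)] at h1
  exact h1.symm.trans (map_one w)

theorem ps_det [Infinite K] (hn : 2 ≤ n) (w : A →ₐ[k] Mn n L) {x : Matrix m m L} (hx : x ∈ Z k G L) :
    (M.ps w x).det = 1 := by
  let r : L →ₐ[k] K ⊗[k] L := Algebra.TensorProduct.includeRight
  obtain ⟨γ, h⟩ := M.exists_gam (L := K ⊗[k] L) Algebra.TensorProduct.includeLeft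
    (r.mapMatrix.comp w)
  refine Algebra.TensorProduct.includeRight_injective (algebraMap k K).injective ?_
  rw [AlgHom.map_det, map_one]
  refine (congrArg det (M.ps_nat r r.mapMatrix.toRingHom.toAddMonoidHom
    (w' := r.mapMatrix.comp w) (fun c a => Matrix.ext fun _ _ => map_mul r _ _) x)).trans ?_
  refine sub_eq_zero.1 (ext e Algebra.TensorProduct.includeLeft
    (pv_sub (pv_det (M.pv_ps pv_id _)) (pv_const 1)) (fun g hg => sub_eq_zero.2 ?_) _ (Z_map r hx))
  have := perf2 hn (detMonoidHom.comp (γ.toMonoidHom.comp ((P011UH.th φ).comp φ.symm.toMonoidHom)))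
    (φ ⟨g, hg⟩)
  refine Eq.trans (congrArg det ((h id _).symm.trans (congrArg γ (M.ps_j ⟨g, hg⟩)))) ?_
  simpa using this

omit e in
/-- the representation over an extension -/
def rp (ι : K →ₐ[k] L) : A →ₐ[k] Mn n L := ι.mapMatrix.comp M.j

theorem ps_inj (h : Pol φ.symm) (ι : K →ₐ[k] L) {x : Matrix m m L} (hx : x ∈ Z k G L)
    (h1 : M.ps (M.rp ι) x = 1) : x = 1 := by
  have h2 : ∀ a b, ∃ q : MvPolynomial (Fin n × Fin n) K, ∀ x ∈ Z k G L,
      x a b = q.eval₂ (ι : K →+* L) fun e => M.ps (M.rp ι) x e.1 e.2 := fun a b =>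
    (h a b).imp fun q hq x hx => sub_eq_zero.1 (ext e ι (pv_sub (pv_entry pv_id a b)
      (pv_eval (ι : K →+* L) (u := fun (e : Fin n × Fin n) x => M.ps (M.rp ι) x e.1 e.2)
        (fun e => pv_entry (M.pv_ps pv_id _) _ _) q)) (fun g hg => sub_eq_zero.2 (by
      have h3 := hq (φ ⟨g, hg⟩)
      have h4 := M.ps_nat ι ι.mapMatrix.toRingHom.toAddMonoidHom
        (w := M.j) (w' := M.rp ι) (fun c a => Matrix.ext fun _ _ => map_mul ι _ _) g.1
      rw [MulEquiv.symm_apply_apply] at h3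
      rw [← h4, map_apply, show g.1 a b = _ from h3, show M.ps M.j g.1 = _ from M.ps_j ⟨g, hg⟩]
      exact MvPolynomial.eval₂_comp_left (ι : K →+* L) (RingHom.id K) _ q)) x hx)
  ext a b
  obtain ⟨q, hq⟩ := h2 a b
  rw [hq x hx, hq 1 Z_one, h1, M.ps_one]

end Mi

end Vale.Agent.P011UH
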