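import Vale.Agent.P011U.IF
import Vale.Agent.P011LT.T1

/-!
Forms and twisted actions, with equivalences.
-/

set_option autoImplicit false
set_option linter.all false

namespace Vale.Agent.P011UH

open Matrix Vale.Agent.P011L Vale.Agent.P011LT Vale.Agent.P011U

variable {k K m n : Type} [Field k] [Field K] [Algebra k K] [Fintype m] [DecidableEq m]
  [Fintype n] [DecidableEq n]

theorem lau_ext [Infinite k] {f : Kˣ → K} (hf : f ∈ Lau K K)
    (h : ∀ t : kˣ, f (Units.map (algebraMap k K : k →* K) t) = 0) : f = 0 := by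
  obtain ⟨c, rfl⟩ := (Finsupp.mem_span_range_iff_exists_finsupp).1 hf
  have li : LinearIndependent K fun j : ℤ =>
      ((ch K j).comp (Units.map (algebraMap k K : k →* K)) : kˣ → K) :=
    (linearIndependent_monoidHom kˣ K).comp (fun j => (ch K j).comp (Units.map _)) fun i j e =>
      sub_eq_zero.1 (zpow_eq_one (k := k) fun t => by
        have : t ^ i = t ^ j := Units.ext ((algebraMap k K).injective (by
          simpa [ch_apply] using DFunLike.congr_fun e t))
        rw [zpow_sub, this, mul_inv_cancel])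
  rw [linearIndependent_iff.1 li c (funext fun t => ?_), Finsupp.sum_zero_index]
  refine Eq.trans ?_ (h t)
  simp only [Finsupp.linearCombination_apply, Finsupp.sum, Finset.sum_apply]
  rfl

/-- the cocharacter given by a basis and exponents -/
def coc (g : GL m K) (y : m → ℤ) : Kˣ →* GL m K :=
  .toHomUnits
    { toFun := fun t => g.1 * (diagonal fun i => (t ^ y i).1) * (g⁻¹).1
      map_one' := by simp
      map_mul' := fun s t => by
        simp only [mul_zpow, Units.val_mul, ← diagonal_mul_diagonal, Matrix.mul_assoc,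
          Units.inv_mul_cancel_left] }

theorem coc_val (g : GL m K) (y : m → ℤ) (t : Kˣ) :
    (coc g y t).1 = g.1 * (diagonal fun i => (t ^ y i).1) * (g⁻¹).1 := rfl

theorem coc_map {L : Type} [Field L] (f : K →+* L) (g : GL m K) (y : m → ℤ) (t : Kˣ) :
    (coc g y t).1.map f = (coc (GeneralLinearGroup.map f g) y (Units.map (f : K →* L) t)).1 := by
  rw [coc_val, coc_val, Matrix.map_mul, Matrix.map_mul, diagonal_map (map_zero f), ← map_inv]
  simp only [← map_zpow]
  rfl

theorem coc_eq [Infinite K] {g : GL m K} {y : m → ℤ} (h : ∀ t, coc g y t = 1) : y = 0 :=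
  funext fun i => zpow_eq_one (k := K) fun t => Units.ext (by
    have h1 := congrArg (fun x => (g⁻¹).1 * (x.1 * g.1)) (h t)
    simp only [coc_val, ← Matrix.mul_assoc, Units.inv_mul, one_mul, Units.inv_mul_cancel_right,
      Units.val_one, mul_one] at h1
    simpa using congrFun₂ h1 i i)

theorem t1i : T1I := by
  intro k K _ _ _ _ _ m n _ _ _ _ G H φ s f
  haveI := Infinite.of_injective _ (algebraMap k K).injective
  have ha : ∀ σ g, (tw s f).a σ (φ g) = φ (gal f.1 σ g) := fun σ g =>
    congrArg (fun x => φ (gal f.1 σ x)) (φ.symm_apply_apply g)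
  let ι : Pts k G k →* G := ((GeneralLinearGroup.map (algebraMap k K)).comp
    (Pts k G k).subtype).codRestrict G fun g => (mem_Pts_sub f.1 (Algebra.ofId k K)).1 g.2
  have hι : Function.Injective ι := fun g g' e => Subtype.ext (Units.ext (Matrix.ext fun i j =>
    (algebraMap k K).injective (congrArg (fun x : G => x.1.1 i j) e)))
  have hf : ∀ g : G, φ g ∈ (tw s f).fix ↔ g ∈ ι.range := fun g => by
    refine ⟨fun h => ?_, ?_⟩
    · obtain ⟨g', e⟩ := exists_down (k := k) (g := g.1) fun σ =>
        congrArg (fun x : G => x.1.1) (φ.injective ((ha σ g).symm.trans (h σ)))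
      exact ⟨⟨g', (mem_Pts_sub f.1 (Algebra.ofId k K)).2 (e.symm ▸ g.2 :)⟩, Subtype.ext e⟩
    · rintro ⟨g, rfl⟩ σ
      rw [ha]
      exact congrArg φ (Subtype.ext (Units.ext (Matrix.ext fun i j => σ.commutes _)))
  refine ⟨tw s f, ⟨MulEquiv.ofBijective ((φ.toMonoidHom.comp ι).codRestrict _
    fun g => (hf _).2 ⟨g, rfl⟩) ⟨fun g g' e => hι (φ.injective (congrArg Subtype.val e)),
      fun h => ?_⟩⟩, ⟨fun an g y l h1 h2 => ?_, fun an g y h => ?_⟩, fun S σ =>
      ⟨fun ⟨x, hx, h⟩ => ⟨x, hx, fun g g' e => ?_⟩, fun ⟨x, hx, h⟩ => ⟨x, hx, fun g => ?_⟩⟩⟩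
  · obtain ⟨g, e⟩ := (hf (φ.symm h.1)).1 (by rw [φ.apply_symm_apply]; exact h.2)
    exact ⟨g, Subtype.ext (show φ (ι g) = _ by rw [e, φ.apply_symm_apply])⟩
  · choose w hw using fun t : kˣ =>
      (hf (φ.symm (l (Units.map (algebraMap k K : k →* K) t)))).1 (by
        rw [φ.apply_symm_apply]
        exact fun σ => (h2 σ _).trans (congrArg l (Units.ext (σ.commutes _))))
    exact ani_of f.2.2 an (fun _ => rfl) g y l h1 hw
  · let g' := GeneralLinearGroup.map (algebraMap k K) g
    have h1 : ∀ q : MvPolynomial (m × m) K,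
        (fun t => MvPolynomial.eval (fun e => (coc g' y t).1 e.1 e.2) q) ∈ Lau K K :=
      lau_conj (k := K) g' y Prod.fst Prod.snd fun _ _ => rfl
    have h2 : ∀ t, coc g' y t ∈ G := fun t => (mem_iff_Zs f.1).2 fun p hp => by
      have := congrFun (lau_ext (k := k) (h1 (p.map (algebraMap k K))) fun t => by
        obtain ⟨u, a, b⟩ := h t
        have : u.1 = (coc g y t).1 := (Units.eq_mul_inv_iff_mul_eq _).2 b
        rw [← coc_map, ← this, MvPolynomial.eval_map]
        exact hp _ (ι ⟨u, a⟩).2) t
      rwa [MvPolynomial.eval_map] at this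
    let w := (coc g' y).codRestrict G h2
    obtain ⟨c, z, hc⟩ := diag_of_lau (H.subtype.comp (φ.toMonoidHom.comp w)) fun a b => by
      obtain ⟨q, hq⟩ := f.2.1 a b
      exact Lau.congr (h1 q) fun t => hq (w t)
    obtain rfl := an c z (fun t => φ (w t)) hc fun σ t => by
      rw [ha]
      refine congrArg φ (Subtype.ext (Units.ext ((coc_map (σ : K →+* K) g' y t).trans ?_)))
      rw [show GeneralLinearGroup.map (σ : K →+* K) g' = g' from
        Units.ext (Matrix.ext fun i j => σ.commutes _)]
      rfl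
    refine coc_eq (g := g') fun t => congrArg Subtype.val (φ.injective (a₁ := w t) (a₂ := 1) ?_)
    have := hc t
    simp only [Pi.zero_apply, zpow_zero, Units.val_one, diagonal_one, mul_one] at this
    rw [map_one]
    exact Subtype.ext (Units.ext (c.mul_left_inj.1 (this.trans (one_mul _).symm)))
  · rw [show g' = gal f.1 σ g from Subtype.ext (Units.ext e), ← ha, h]
  · obtain ⟨g, rfl⟩ := φ.surjective g
    rw [ha]
    exact h g _ rfl

end Vale.Agent.P011UH
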