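import Vale.Agent.P011UH.Ldu
import Vale.Agent.P011UA.A0
import Vale.Agent.P011LT.Tor

/-!
The big cell of a Chevalley group and its coordinates.
-/

set_option autoImplicit false
set_option linter.all false

namespace Vale.Agent.P011UH

open Matrix Finset Vale.Agent.P183CH Vale.Agent.P183CH.Chev Vale.Agent.P011U

variable {D : Chev} {K : Type} [Field K]

variable (D) in
/-- a total order on the basis which refines the height -/
noncomputable def bt (a : Fin D.n) : ℤ := D.n * D.R.wht (D.wt a) + a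

theorem bt_lt {a b : Fin D.n} (h : D.R.wht (D.wt b) < D.R.wht (D.wt a)) : bt D b < bt D a := by
  have h1 : ((b : ℕ) : ℤ) < D.n := by exact_mod_cast b.2
  have h2 : (0 : ℤ) ≤ (a : ℕ) := Int.natCast_nonneg _
  have h3 : (0 : ℤ) ≤ D.n := Int.natCast_nonneg _
  have := mul_le_mul_of_nonneg_left (Int.add_one_le_of_lt h) h3
  simp only [bt]
  linarith

theorem bt_inj : Function.Injective (bt D) := fun a b e => by
  rcases lt_trichotomy (D.R.wht (D.wt b)) (D.R.wht (D.wt a)) with h | h | h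
  · exact absurd e (bt_lt h).ne'
  · simp only [bt, h, add_right_inj] at e
    exact Fin.ext (by exact_mod_cast e)
  · exact absurd e (bt_lt h).ne

theorem up_U {u : D.grp K} (h : u ∈ (GG D K).U) : Fl (bt D) 0 u.1.1 ∧ ∀ a, u.1.1 a a = 1 :=
  fl_of (fun a b e => (bt_lt (by simpa using e)).le) (GG_mat.fl_U h)

theorem lo_V {u : D.grp K} (h : u ∈ (GG D K).V) : Lo (bt D) u.1.1 :=
  have := fl_of (β := -bt D) (fun a b e => neg_le_neg (bt_lt (by simpa using e)).le) (GG_mat.fl_V h)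
  ⟨this.2, this.1⟩

theorem exists_n0 : ∃ n : D.grp K, n ∈ (GG D K).N ∧
    ∀ g, (g ∈ (GG D K).U ↔ n * g * n⁻¹ ∈ (GG D K).V) ∧
      (g ∈ (GG D K).V ↔ n * g * n⁻¹ ∈ (GG D K).U) := by
  obtain ⟨w, hw⟩ := (R_ok D).exists_Lg Set.univ
  obtain ⟨n, -, h⟩ := RG.exists_rep' (Γ := GG D K) hw.1
  refine ⟨n, h.mem_N, fun g => ?_⟩
  rw [← RG.UJ_univ, ← RG.VJ_univ]
  exact ⟨GG_ok.Lg_conj (R_ok D) h hw, GG_ok.Lg_conj' (R_ok D) h hw⟩

theorem val_mul (g h : D.grp K) : (g * h).1.1 = g.1.1 * h.1.1 := rfl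

theorem cell [Infinite K] (g : D.grp K) (hg : dl (bt D) g.1.1 ≠ 0) {P : D.Mat K}
    (h1 : Lo (bt D) P) (h2 : Fl (bt D) 0 (P * g.1.1)) (h3 : ∀ a, (P * g.1.1) a a ≠ 0) :
    ∃ v ∈ (GG D K).V, ∃ t ∈ (GG D K).T, ∃ u ∈ (GG D K).U, v * g = t * u ∧ P = v.1.1 := by
  obtain ⟨m, hm, h0⟩ := exists_n0 (D := D) (K := K)
  obtain ⟨u', hu', n', w', hn', u, hu, e⟩ := GG_ok.bruhat (R_ok D) (m * g)
  have hu : u ∈ (GG D K).U := RG.X_mono (fun _ h _ => h.2.1) hu
  have hv : m⁻¹ * u'⁻¹ * m ∈ (GG D K).V := (h0 _).2.2 (by simpa [mul_assoc] using inv_mem hu')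
  obtain ⟨w, hw⟩ := RG.exists_rep_N (mul_mem (inv_mem hm) hn'.mem_N)
  have e1 : m⁻¹ * u'⁻¹ * m * g = m⁻¹ * n' * u := by rw [mul_assoc _ m, e]; group
  generalize m⁻¹ * u'⁻¹ * m = v at hv e1
  generalize m⁻¹ * n' = n at hw e1
  have c : ∀ t ∈ (GG D K).T, n * t * n⁻¹ = t := fun t ht => by
    obtain ⟨d, hd⟩ := GG_mat.diag_T ht
    have ht' := GG_ok.nm_N_T (R_ok D) n hw.mem_N t ht
    obtain ⟨d', hd'⟩ := GG_mat.diag_T ht'
    obtain ⟨d'', hd''⟩ := GG_mat.diag_T (inv_mem ht')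
    change t.1.1 = _ at hd
    change (n * t * n⁻¹).1.1 = _ at hd'
    change (n * t * n⁻¹)⁻¹.1.1 = _ at hd''
    have a0 : ∀ a, d'' a * d' a = 1 := fun a => by
      have := congrArg (fun x : D.grp K => x.1.1 a a) (inv_mul_cancel (n * t * n⁻¹))
      simpa only [val_mul, hd', hd'', diagonal_mul_diagonal, diagonal_apply_eq, OneMemClass.coe_one,
        Units.val_one, one_apply_eq] using this
    have a1 : Lo (bt D) (diagonal d'' * (P * v⁻¹.1.1) * diagonal d') := by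
      have := h1.mul bt_inj (lo_V (inv_mem hv))
      refine ⟨fun a => ?_, ((fl_dg _).mul this.fl).mul (fl_dg _)⟩
      rw [mul_diagonal, diagonal_mul, this.dg, mul_one, a0]
    have a2 : diagonal d'' * (P * v⁻¹.1.1) * diagonal d' * v.1.1 * g.1.1 =
        diagonal d'' * (P * g.1.1) * (u⁻¹.1.1 * diagonal d * u.1.1) := by
      rw [← hd, ← hd']
      simp only [Matrix.mul_assoc, ← val_mul]
      rw [mul_assoc _ v, e1, show g = v⁻¹ * (n * u) by rw [← e1, inv_mul_cancel_left]]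
      congr 4
      group
    have a3 := ((up_U (inv_mem hu)).1.mul (fl_dg d))
    have a4 := (fl_dg d'').mul h2
    have a5 := ldu_uq bt_inj hg.isUnit h1 (a1.mul bt_inj (lo_V hv)) h2
      (a2 ▸ a4.mul (a3.mul (up_U hu).1))
    rw [← a5] at a2
    refine Subtype.ext (Units.ext (hd'.trans ((congrArg _ (funext fun a => ?_)).trans hd.symm)))
    have := congrFun₂ a2 a a
    rw [Fl.dg bt_inj a4 (a3.mul (up_U hu).1), Fl.dg bt_inj a3 (up_U hu).1, mul_diagonal,
      diagonal_mul, (up_U hu).2, (up_U (inv_mem hu)).2] at this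
    refine mul_left_cancel₀ (h3 a) ?_
    linear_combination d' a * this + (P * g.1.1) a a * d a * a0 a
  have hw1 : w = 1 := RS.aut_ext fun i => (R_ok D).pr_inj (funext fun j => sub_eq_zero.1
    (P011LT.zpow_eq_one (k := K) fun s => by
      have := GG_ok.chi_rep (R_ok D) hw (D.R.α i) (RG.h_mem j s)
      rw [c _ (RG.h_mem j s), GG_ok.chi_h (R_ok D), GG_ok.chi_h (R_ok D)] at this
      rw [zpow_sub, this]
      exact mul_inv_cancel _))
  have hn : n ∈ (GG D K).T := GG_ok.rep_one (R_ok D) (hw1 ▸ hw)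
  obtain ⟨d, hd⟩ := GG_mat.diag_T hn
  refine ⟨v, hv, n, hn, u, hu, e1, ldu_uq bt_inj hg.isUnit h1 (lo_V hv) h2 ?_⟩
  rw [← val_mul, e1, val_mul, show n.1.1 = _ from hd]
  exact (fl_dg d).mul (up_U hu).1

section

variable {Ω : Type} (S : Subalgebra K (Ω → K))

/-- the entries belong to `S` -/
def Ent {J : Type} (Y : Ω → Matrix J J K) : Prop := ∀ a b, (fun M => Y M a b) ∈ S

variable (D) in
/-- the maps to the group with coordinates in `S` -/
def RM : Subgroup (Ω → D.grp K) := Subgroup.closure {f | (∃ g, f = fun _ => g) ∨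
  ∃ γ ∈ D.R.Φ, ∃ a ∈ S, f = fun M => (GG D K).x γ (a M)}

variable {S}

theorem Ent.mul {J : Type} [Fintype J] {Y Z : Ω → Matrix J J K} (h : Ent S Y) (h' : Ent S Z) :
    Ent S fun M => Y M * Z M := fun a b => by
  have := S.sum_mem fun c (_ : c ∈ univ) => S.mul_mem (h a c) (h' c b)
  convert this using 1
  funext M
  simp [mul_apply]

theorem ent_const {J : Type} (Y : Matrix J J K) : Ent S fun _ => Y :=
  fun a b => S.algebraMap_mem (Y a b)

theorem pol_mem {a : Ω → K} (h : a ∈ S) (p : Polynomial K) : (fun M => p.eval (a M)) ∈ S := by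
  induction p using Polynomial.induction_on' with
  | add p q x y =>
    simp only [Polynomial.eval_add]
    exact S.add_mem x y
  | monomial n c =>
    simp only [Polynomial.eval_monomial]
    exact S.mul_mem (S.algebraMap_mem c) (S.pow_mem h n)

theorem xm_pol {n : ℕ} (E : ℕ → Matrix (Fin n) (Fin n) ℤ) (a b : Fin n) :
    ∃ p : Polynomial K, ∀ t : K, xm E t a b = p.eval t :=
  ⟨xm E Polynomial.X a b, fun t => by
    simpa using (congrFun₂ (xm_map (Polynomial.evalRingHom t) E Polynomial.X) a b).symm⟩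

theorem rm_const (g : D.grp K) : (fun _ => g) ∈ RM D S := Subgroup.subset_closure (.inl ⟨g, rfl⟩)

theorem rm_x {γ : D.R.Q} (h : γ ∈ D.R.Φ) {a : Ω → K} (ha : a ∈ S) :
    (fun M => (GG D K).x γ (a M)) ∈ RM D S := Subgroup.subset_closure (.inr ⟨γ, h, a, ha, rfl⟩)

theorem rm_h (i : Fin D.r) {s : Ω → Kˣ} (h : (fun M => (s M).1) ∈ S)
    (h' : (fun M => (s M)⁻¹.1) ∈ S) : (fun M => (GG D K).h i (s M)) ∈ RM D S := by
  have := mul_mem (mul_mem (mul_mem (rm_x ((R_ok D).simple i) h)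
    (rm_x ((R_ok D).neg_mem ((R_ok D).simple i)) (S.neg_mem h'))) (rm_x ((R_ok D).simple i) h))
    (rm_const ((GG D K).n i)⁻¹)
  convert this using 1
  funext M
  exact (mul_inv_eq_iff_eq_mul.2 (GG_ok.sl i (s M))).symm

theorem rm_hT {s : Ω → Fin D.r → Kˣ} (h : ∀ i, (fun M => (s M i).1) ∈ S)
    (h' : ∀ i, (fun M => (s M i)⁻¹.1) ∈ S) : (fun M => GG_ok.hT (s M)) ∈ RM D S := by
  have : ∀ l : Finset (Fin D.r), (fun M => GG_ok.hT (∏ i ∈ l, Pi.mulSingle i (s M i))) ∈ RM D S :=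
    fun l => by
    induction l using Finset.induction_on with
    | empty => simpa using rm_const 1
    | insert i l hi ih =>
      simp only [prod_insert hi, map_mul, GG_ok.hT_single]
      exact mul_mem (rm_h i (h i) (h' i)) ih
  simpa only [univ_prod_mulSingle] using this univ

theorem ent_rm {J : Type} [Fintype J] [DecidableEq J] (ρ : D.grp K →* Matrix J J K)
    (h : ∀ i a b, ∃ p q : Polynomial K, ∀ t, ρ ((GG D K).x (D.α i) t) a b = p.eval t ∧
      ρ ((GG D K).x (-D.α i) t) a b = q.eval t) {f : Ω → D.grp K} (hf : f ∈ RM D S) :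
    Ent S fun M => ρ (f M) := by
  have h1 : ∀ γ ∈ D.R.Φ, ∀ a ∈ S, Ent S fun M => ρ ((GG D K).x γ (a M)) := fun γ hγ a ha => by
    obtain ⟨w, hw, i, rfl⟩ := (R_ok D).exists_conj hγ
    obtain ⟨n, -, hn⟩ := RG.exists_rep' (Γ := GG D K) hw
    obtain ⟨c, hc⟩ := GG_ok.rep_conj (R_ok D) hn ((R_ok D).simple i)
    have : Ent S fun M => ρ ((GG D K).x (D.α i) (c⁻¹.1 * a M)) := fun x y => by
      obtain ⟨p, q, e⟩ := h i x y
      simp only [(e _).1]
      exact pol_mem (S.smul_mem ha c⁻¹.1) p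
    convert ((ent_const (ρ n)).mul this).mul (ent_const (ρ n⁻¹)) using 2 with M
    rw [← map_mul, ← map_mul]
    exact congrArg ρ (((hc _).1.trans (by rw [Units.mul_inv_cancel_left])).symm)
  induction hf using Subgroup.closure_induction'' with
  | mem x hx =>
    obtain ⟨g, rfl⟩ | ⟨γ, hγ, a, ha, rfl⟩ := hx
    · exact ent_const _
    · exact h1 γ hγ a ha
  | inv_mem x hx =>
    obtain ⟨g, rfl⟩ | ⟨γ, hγ, a, ha, rfl⟩ := hx
    · exact ent_const (ρ g⁻¹)
    · simpa only [Pi.inv_apply, Pi.neg_apply, GG_ok.x_neg hγ] using h1 γ hγ _ (S.neg_mem ha)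
  | one => exact ent_const (ρ 1)
  | mul x y _ _ hx hy => simpa only [Pi.mul_apply, map_mul] using hx.mul hy

theorem nat_pol (i : Fin D.r) (a b : Fin D.n) : ∃ p q : Polynomial K, ∀ t,
    D.nat K ((GG D K).x (D.α i) t) a b = p.eval t ∧
      D.nat K ((GG D K).x (-D.α i) t) a b = q.eval t := by
  obtain ⟨p, hp⟩ := xm_pol (K := K) (D.EE (D.α i)) a b
  obtain ⟨q, hq⟩ := xm_pol (K := K) (D.EE (-D.α i)) a b
  exact ⟨p, q, fun t => ⟨(congrFun₂ (GG_mat.x_eq _ ((R_ok D).simple i) t) a b).trans (hp t),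
    (congrFun₂ (GG_mat.x_eq _ ((R_ok D).neg_mem ((R_ok D).simple i)) t) a b).trans (hq t)⟩⟩

theorem peel : ∀ l : List D.R.Q, l.Nodup → (∀ γ ∈ l, γ ∈ D.R.Pos) →
    l.Pairwise (fun γ δ => ∑ i, γ i ≤ ∑ i, δ i) → ∀ Y : Ω → D.Mat K, Ent S Y →
    ∃ f ∈ RM D S, ∀ M c, Y M = ((GG D K).P l c).1.1 → f M = (GG D K).P l c
  | [], _, _, _, _, _ => ⟨1, one_mem _, fun _ _ _ => rfl⟩
  | γ :: l, h1, h2, h3, Y, h4 => by
    obtain ⟨hγ, h0⟩ := h2 γ List.mem_cons_self
    obtain ⟨a, b, hab⟩ := (rf D).exists_entry hγ K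
    let s : Ω → K := fun M => (D.EE γ 1 a b : K)⁻¹ * (Y M a b - (1 : D.Mat K) a b)
    have hs : s ∈ S := S.smul_mem (S.sub_mem (h4 a b) (S.algebraMap_mem _)) _
    obtain ⟨f, hf, e⟩ := peel l h1.of_cons (fun δ hδ => h2 δ (List.mem_cons_of_mem _ hδ)) h3.of_cons
      _ ((ent_rm (D.nat K) nat_pol (inv_mem (rm_x hγ hs))).mul h4)
    refine ⟨_, mul_mem (rm_x hγ hs) hf, fun M c hM => ?_⟩
    have hc : s M = c γ := by
      have e1 : (((γ :: l).map fun δ => (δ, c δ)).map Prod.fst) = γ :: l := by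
        rw [List.map_map]; exact List.map_id _
      have e2 := GG_mat.prod_eq ((γ :: l).map fun δ => (δ, c δ)) fun e he => by
        obtain ⟨δ, hδ, rfl⟩ := List.mem_map.1 he
        exact (h2 _ hδ).1
      have := ((rf D).prod_entry (R_ok D) ((R_ok D).sum_pos hγ h0)
        ((γ :: l).map fun δ => (δ, c δ)) fun e he => by
        obtain ⟨δ, hδ, rfl⟩ := List.mem_map.1 he
        refine ⟨(h2 _ hδ).1, Or.inr ?_⟩
        rcases List.mem_cons.1 hδ with h8 | h8
        · rw [h8]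
        · exact List.rel_of_pairwise_cons h3 h8).2 a b
          ((rf D).deg γ hγ a b fun e => hab (by rw [e, Int.cast_zero]))
      rw [sum_ite_nodup ((γ :: l).map fun δ => (δ, c δ)) (e1.symm ▸ h1) (γ, c γ) List.mem_cons_self,
        ← e2, List.map_map] at this
      refine (inv_mul_eq_iff_eq_mul₀ hab).2 ?_
      rw [hM, mul_comm]
      exact this
    rw [Pi.mul_apply, e M c, hc, RG.P_cons]
    rw [hM, RG.P_cons, Pi.inv_apply, hc]
    exact congrArg (fun x : D.grp K => x.1.1) (inv_mul_cancel_left _ _)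

theorem peelU {Y : Ω → D.Mat K} (h : Ent S Y) :
    ∃ f ∈ RM D S, ∀ M, ∀ u ∈ (GG D K).U, Y M = u.1.1 → f M = u := by
  obtain ⟨l, h1, h2, h3⟩ := exists_sorted (R := D.R) (T := D.R.Pos) le_rfl
  obtain ⟨f, hf, e⟩ := peel l h1 (fun γ h => (h2 γ).1 h) h3 Y h
  refine ⟨f, hf, fun M u hu hM => ?_⟩
  obtain ⟨c, rfl⟩ := GG_ok.exists_P (R_ok D) RS.cl_Pos h1 h2 (g := u) (by rwa [← RG.U_eq])
  exact e M c hM

end

end Vale.Agent.P011UH
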