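import Vale.Agent.P183CH1B.Mat
import Mathlib.LinearAlgebra.Matrix.NonsingularInverse

/-!
Triangular decompositions of matrices over commutative rings.
-/

set_option autoImplicit false
set_option linter.all false

namespace Vale.Agent.P011UH

open Matrix Finset Vale.Agent.P183CH

variable {n : ℕ} {A : Type} [CommRing A] {β : Fin n → ℤ} {M N P : Matrix (Fin n) (Fin n) A}

theorem det_tr {ι : Type} [Fintype ι] [DecidableEq ι] (ht : ι → ℤ) {u : Matrix ι ι A}
    (h2 : ∀ a b, u a b ≠ 0 → a = b ∨ ht b < ht a) : u.det = ∏ a, u a a := by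
  rw [det_apply', sum_eq_single 1, Equiv.Perm.sign_one]
  · simp
  · intro σ _ hσ
    by_contra c
    have h3 : ∀ a, u (σ a) a ≠ 0 := fun a e => c (by
      rw [prod_eq_zero (f := fun i => u (σ i) i) (mem_univ a) e, mul_zero])
    obtain ⟨a, ha⟩ : ∃ a, σ a ≠ a := by
      by_contra c
      exact hσ (Equiv.ext fun a => not_not.1 fun e => c ⟨a, e⟩)
    have h4 : ∑ a, ht a < ∑ a, ht (σ a) := sum_lt_sum (fun b hb => by
      rcases h2 _ _ (h3 b) with e | e
      · rw [e]
      · exact e.le) ⟨a, mem_univ _, (h2 _ _ (h3 a)).resolve_left ha⟩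
    rw [Equiv.sum_comp σ ht] at h4
    exact lt_irrefl _ h4
  · simp

variable (β) in
/-- a principal submatrix -/
def sb (j : ℤ) (M : Matrix (Fin n) (Fin n) A) : Matrix {c // j ≤ β c} {c // j ≤ β c} A :=
  M.submatrix Subtype.val Subtype.val

variable (β) in
/-- the product of the principal minors -/
def dl (M : Matrix (Fin n) (Fin n) A) : A := ∏ a, (sb β (β a) M).det * (sb β (β a + 1) M).det

theorem dl_map {B : Type} [CommRing B] (f : A →+* B) (M : Matrix (Fin n) (Fin n) A) :
    dl β (M.map f) = f (dl β M) := by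
  simp only [dl, map_prod, map_mul, RingHom.map_det]
  rfl

theorem dl_one : dl β (1 : Matrix (Fin n) (Fin n) A) = 1 := by
  simp [dl, sb, submatrix_one _ Subtype.val_injective]

/-- lower triangular with ones on the diagonal -/
structure Lo (β : Fin n → ℤ) (P : Matrix (Fin n) (Fin n) A) : Prop where
  dg : ∀ a, P a a = 1
  fl : Fl (-β) 0 P

theorem sum_sb (j : ℤ) (f : Fin n → A) (h : ∀ c, f c ≠ 0 → j ≤ β c) :
    ∑ c : {c // j ≤ β c}, f c = ∑ c, f c := by
  rw [← sum_subtype (univ.filter fun c => j ≤ β c) (by simp) f]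
  exact sum_filter_of_ne fun c _ => h c

theorem sb_mul (h : Fl (-β) 0 P) (j : ℤ) (M : Matrix (Fin n) (Fin n) A) :
    sb β j (P * M) = sb β j P * sb β j M := by
  ext a b
  rw [mul_apply, sb, submatrix_apply, mul_apply]
  refine (sum_sb j (fun c => P a c * M c b) fun c e => ?_).symm
  have := h _ _ (left_ne_zero_of_mul e)
  have := a.2
  simp only [Pi.neg_apply] at *
  omega

theorem Fl.dg (hβ : Function.Injective β) (h : Fl β 0 M) (h' : Fl β 0 N) (a : Fin n) :
    (M * N) a a = M a a * N a a := by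
  rw [mul_apply]
  refine sum_eq_single a (fun c _ e => by_contra fun e' => e (hβ ?_)) (by simp)
  have := h _ _ (left_ne_zero_of_mul e')
  have := h' _ _ (right_ne_zero_of_mul e')
  omega

theorem neg_inj' (hβ : Function.Injective β) : Function.Injective (-β) :=
  fun _ _ e => hβ (neg_injective e)

theorem Lo.mul (hβ : Function.Injective β) (h : Lo β M) (h' : Lo β N) : Lo β (M * N) :=
  ⟨fun a => by rw [Fl.dg (neg_inj' hβ) h.fl h'.fl, h.dg, h'.dg, one_mul], h.fl.mul h'.fl⟩

theorem fl_dg (d : Fin n → A) : Fl β 0 (diagonal d) := fun a b e => by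
  by_cases c : a = b
  · rw [c, add_zero]
  · exact absurd (diagonal_apply_ne d c) e

theorem fl_of {γ : Fin n → ℤ} (hγ : ∀ a b, γ b < γ a → β b ≤ β a) (h : Fl γ 1 (M - 1)) :
    Fl β 0 M ∧ ∀ a, M a a = 1 := by
  refine ⟨fun a b e => ?_, fun a => by_contra fun c => ?_⟩
  · by_cases c : a = b
    · rw [c, add_zero]
    · have := h a b (by rwa [Matrix.sub_apply, one_apply_ne c, sub_zero])
      exact (add_zero _).trans_le (hγ a b (by omega))
  · have := h a a (by simpa [sub_eq_zero] using c)
    omega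

theorem det_sb (hβ : Function.Injective β) (h : Fl β 0 M ∨ Fl (-β) 0 M) (j : ℤ) :
    (sb β j M).det = ∏ a : {c // j ≤ β c}, M a a := by
  rcases h with h | h
  · exact det_tr (fun c => β c.1) fun a b e => or_iff_not_imp_left.2 fun c =>
      lt_of_le_of_ne (by simpa using h _ _ e) fun e' => c (Subtype.ext (hβ e'.symm))
  · exact det_tr (fun c => -β c.1) fun a b e => or_iff_not_imp_left.2 fun c =>
      lt_of_le_of_ne (by simpa using h _ _ e) fun e' => c (Subtype.ext (hβ (neg_injective e'.symm)))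

theorem ldu (hβ : Function.Injective β) (h : IsUnit (dl β M)) :
    ∃ P, Lo β P ∧ Fl β 0 (P * M) ∧ ∀ a, IsUnit ((P * M) a a) := by
  have h1 := fun a => IsUnit.mul_iff.1 (IsUnit.prod_univ_iff.1 h a)
  let x : ∀ a, {c // β a + 1 ≤ β c} → A := fun a =>
    (fun c => -M a c.1) ᵥ* (sb β (β a + 1) M)⁻¹
  let P : Matrix (Fin n) (Fin n) A := of fun a c =>
    (if c = a then 1 else 0) + if e : β a + 1 ≤ β c then x a ⟨c, e⟩ else 0
  have h2 : Lo β P := ⟨fun a => by simp [P], fun a c e => by
    by_contra e'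
    simp only [Pi.neg_apply] at e'
    refine e ?_
    simp only [P, of_apply]
    rw [if_neg fun (c' : c = a) => e' (by rw [c', add_zero]), dif_neg (by omega), add_zero]⟩
  have h3 : Fl β 0 (P * M) := fun a c e => by
    by_contra e'
    have e1 : β a + 1 ≤ β c := by omega
    refine e ?_
    have e2 : (x a ᵥ* sb β (β a + 1) M) ⟨c, e1⟩ = -M a c := by
      simp only [x, vecMul_vecMul, nonsing_inv_mul _ (h1 a).2, vecMul_one]
    simp only [P, mul_apply, of_apply, add_mul, sum_add_distrib, ite_mul, one_mul, zero_mul,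
      sum_ite_eq', mem_univ, if_true]
    rw [← sum_sb (β a + 1) _ fun d e => by_contra fun e' => e (by rw [dif_neg e', zero_mul]),
      add_eq_zero_iff_neg_eq, ← e2]
    rw [vecMul, dotProduct]
    exact sum_congr rfl fun d _ => by rw [dif_pos d.2]; rfl
  refine ⟨P, h2, h3, fun a => ?_⟩
  have h4 := congrArg det (sb_mul h2.fl (β a) M)
  rw [det_mul, det_sb hβ (.inl h3), det_sb hβ (.inr h2.fl)] at h4
  simp only [h2.dg, prod_const_one, one_mul] at h4
  exact IsUnit.prod_univ_iff.1 (h4 ▸ (h1 a).1) ⟨a, le_rfl⟩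

theorem ldu_uq (hβ : Function.Injective β) (h : IsUnit (dl β M)) (h1 : Lo β P) (h2 : Lo β N)
    (h3 : Fl β 0 (P * M)) (h4 : Fl β 0 (N * M)) : P = N := by
  ext a c
  have h5 := (IsUnit.mul_iff.1 (IsUnit.prod_univ_iff.1 h a)).2
  have h6 : ∀ d, P a d - N a d ≠ 0 → β a + 1 ≤ β d := fun d e => by
    by_contra e'
    by_cases c : a = d
    · exact e (by rw [c, h1.dg, h2.dg, sub_self])
    have : β a ≠ β d := fun e => c (hβ e)
    have a1 : P a d = 0 := by_contra fun e => by
      have := h1.fl _ _ e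
      simp only [Pi.neg_apply] at this
      omega
    have a2 : N a d = 0 := by_contra fun e => by
      have := h2.fl _ _ e
      simp only [Pi.neg_apply] at this
      omega
    exact e (by rw [a1, a2, sub_self])
  have h7 : (fun d : {c // β a + 1 ≤ β c} => P a d - N a d) ᵥ* sb β (β a + 1) M = 0 := by
    funext d
    refine (sum_sb (β a + 1) (fun c => (P a c - N a c) * M c d) fun c e =>
      h6 c (left_ne_zero_of_mul e)).trans ?_
    have := d.2
    have a1 : (P * M) a d = 0 := by_contra fun e => by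
      have := h3 _ _ e
      omega
    have a2 : (N * M) a d = 0 := by_contra fun e => by
      have := h4 _ _ e
      omega
    simp only [sub_mul, sum_sub_distrib, ← mul_apply, a1, a2, sub_self, Pi.zero_apply]
  have h8 := congrArg (· ᵥ* (sb β (β a + 1) M)⁻¹) h7
  simp only [vecMul_vecMul, mul_nonsing_inv _ h5, vecMul_one, zero_vecMul] at h8
  by_contra e
  exact sub_ne_zero.2 e (congrFun h8 ⟨c, h6 c (sub_ne_zero.2 e)⟩)

end Vale.Agent.P011UH
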