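import Vale.Agent.P011UH.Mi
import Vale.Agent.P011U.IF
import Vale.Agent.P011UE.Spec
import Vale.Agent.P011.H327.RnInst
import Mathlib.Topology.Algebra.MvPolynomial

/-!
The conjecture for the anisotropic inner forms of type `A`.
-/

set_option linter.all false

open Matrix TensorProduct

namespace Vale.Agent.P011UH

open Vale.Agent.P011L Vale.Agent.P011LT Vale.Agent.P011.H925 Vale.Agent.P011UE
open Vale.Agent.P011LB hiding th span_th exists_th th_inj

variable {k K m A : Type} [Field k] [Field K] [Algebra k K] [Fintype m] [DecidableEq m]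
  {G : Subgroup (GL m K)} {n : ℕ} {φ : G ≃* SA K n} [Ring A] [Algebra k A] (M : Mi k φ A)

namespace Mi

include M in
theorem ind {P : Mn n K → Prop} (h0 : P 0) (h1 : ∀ x y, P x → P y → P (x + y))
    (h2 : ∀ (c : K) a, P (c • M.j a)) (y : Mn n K) : P y := by
  obtain ⟨T, rfl⟩ := M.bij.2 y
  induction T with
  | zero => rwa [map_zero]
  | tmul c a => exact lf_tmul M.j c a ▸ h2 c a
  | add x y a b => exact map_add (lf M.j) x y ▸ h1 _ _ a b

include M in
theorem rank : Module.finrank k A = n ^ 2 := by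
  rw [← Module.finrank_baseChange (R := K) (S := k),
    (AlgEquiv.ofBijective _ M.bij).toLinearEquiv.finrank_eq, Module.finrank_matrix, Fintype.card_fin,
    Module.finrank_self, mul_one, sq]

/-- the rational points as points over `K` -/
def up (e : Pts k G K = G) (g : Pts k G k) : G :=
  ⟨_, (mem_Pts_sub e (Algebra.ofId k K)).1 g.2⟩

theorem j_up (e : Pts k G K = G) (g : Pts k G k) :
    M.j (M.ps (AlgHom.id k A) g.1.1) = P011UH.th φ (up e g) := (M.j_ps _).trans (M.ps_j (up e g))

theorem psk_inj (e : Pts k G K = G) {g h : Pts k G k}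
    (a : M.ps (AlgHom.id k A) g.1.1 = M.ps (AlgHom.id k A) h.1.1) : g = h := by
  have := th_inj φ ((M.j_up e g).symm.trans ((congrArg _ a).trans (M.j_up e h)))
  exact Subtype.ext (Units.ext (Matrix.map_injective (algebraMap k K).injective
    (congrArg (·.1.1) this)))

variable [IsGalois k K] (e : Pts k G K = G)

include e in
theorem surj {u : A} (hd : (M.j u).det = 1) :
    ∃ g : Pts k G k, M.ps (AlgHom.id k A) g.1.1 = u := by
  let g := φ.symm ⟨GeneralLinearGroup.mkOfDetNeZero (M.j u) (hd ▸ one_ne_zero), mem_SA.2 hd⟩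
  have h2 : P011UH.th φ g = M.j u := congrArg (·.1.1) (φ.apply_symm_apply _)
  obtain ⟨g', hg⟩ := exists_down (M.rat g u h2)
  refine ⟨⟨g', (mem_Pts_sub e (Algebra.ofId k K)).2 (hg ▸ g.2 :)⟩, M.inj ?_⟩
  rw [j_up M e, ← h2]
  exact congrArg _ (Subtype.ext hg)

variable [NeZero n]

include M in
theorem central : Algebra.IsCentral k A := ⟨fun c hc => by
  have h1 : ∀ y, y * M.j c = M.j c * y := M.ind (by simp)
    (fun x y a b => by rw [add_mul, mul_add, a, b]) fun d a => by
      rw [smul_mul_assoc, mul_smul_comm, ← map_mul, ← map_mul, Subalgebra.mem_center_iff.1 hc]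
  obtain ⟨u, hu⟩ := mem_range_scalar_of_commute_single fun i j _ => h1 (single i j 1)
  obtain ⟨r, rfl⟩ := (InfiniteGalois.mem_range_algebraMap_iff_fixed (k := k) u).2 fun σ => by
    obtain ⟨s, hs⟩ := M.fix σ
    have := hs c
    rw [← h1, s.mul_right_inj, ← hu] at this
    simpa using (congrFun₂ this 0 0).symm
  exact ⟨r, M.inj ((M.j.commutes r).trans hu)⟩⟩

omit [IsGalois k K] in
include M in
theorem simple : IsSimpleRing A := by
  haveI : Nontrivial A := M.j.toRingHom.domain_nontrivial
  refine .of_eq_bot_or_eq_top fun I => or_iff_not_imp_left.2 fun h => ?_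
  obtain ⟨a, ha, h0⟩ := SetLike.exists_of_lt (bot_lt_iff_ne_bot.2 h)
  let T := Submodule.span K (M.j '' I)
  have p1 : ∀ x, ∀ y ∈ T, x * y ∈ T ∧ y * x ∈ T := fun x y hy => by
    induction hy using Submodule.span_induction with
    | mem y hy =>
      obtain ⟨y, hy, rfl⟩ := hy
      refine M.ind (P := fun x => x * M.j y ∈ T ∧ M.j y * x ∈ T) (by simp)
        (fun _ _ a b => by rw [add_mul, mul_add]; exact ⟨add_mem a.1 b.1, add_mem a.2 b.2⟩)
        (fun c a => ?_) x
      rw [smul_mul_assoc, mul_smul_comm, ← map_mul, ← map_mul]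
      exact ⟨T.smul_mem _ (Submodule.subset_span ⟨_, I.mul_mem_left _ _ hy, rfl⟩),
        T.smul_mem _ (Submodule.subset_span ⟨_, I.mul_mem_right _ _ hy, rfl⟩)⟩
    | zero => simp
    | add _ _ _ _ a b => rw [add_mul, mul_add]; exact ⟨add_mem a.1 b.1, add_mem a.2 b.2⟩
    | smul c _ _ a =>
      rw [smul_mul_assoc, mul_smul_comm]
      exact ⟨T.smul_mem _ a.1, T.smul_mem _ a.2⟩
  have p2 : (1 : Mn n K) ∈ T :=
    (TwoSidedIdeal.mem_mk' _ _ _ _ _ _ _).1 (IsSimpleRing.one_mem_of_ne_zero_mem
      (TwoSidedIdeal.mk' T T.zero_mem T.add_mem T.neg_mem (fun a => (p1 _ _ a).1)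
        fun a => (p1 _ _ a).2) (fun e => h0 (M.inj (e.trans (map_zero M.j).symm)))
      ((TwoSidedIdeal.mem_mk' _ _ _ _ _ _ _).2 (Submodule.subset_span (Set.mem_image_of_mem M.j ha))))
  obtain ⟨π, hπ⟩ := Module.Projective.exists_dual_eq_one k (one_ne_zero : (1 : K) ≠ 0)
  let r : Mn n K →ₗ[k] A := (TensorProduct.lid k A).toLinearMap ∘ₗ π.rTensor A ∘ₗ
    (AlgEquiv.ofBijective _ M.bij).symm.toLinearMap.restrictScalars k
  have r1 : ∀ (c : K) a, r (c • M.j a) = π c • a := fun c a => by
    rw [← lf_tmul]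
    exact congrArg (fun T => TensorProduct.lid k A (π.rTensor A T))
      ((AlgEquiv.ofBijective _ M.bij).symm_apply_apply (c ⊗ₜ a))
  have p3 : ∀ y ∈ T, ∀ c : K, r (c • y) ∈ I := fun y hy => by
    induction hy using Submodule.span_induction with
    | mem y hy =>
      obtain ⟨y, hy, rfl⟩ := hy
      exact fun c => by rw [r1, Algebra.smul_def]; exact I.mul_mem_left _ _ hy
    | zero => simp
    | add _ _ _ _ a b => exact fun c => by rw [smul_add, map_add]; exact I.add_mem (a c) (b c)
    | smul d _ _ a => exact fun c => by rw [smul_smul]; exact a _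
  have := p3 _ p2 1
  rwa [← map_one M.j, r1, hπ, one_smul, TwoSidedIdeal.one_mem_iff] at this

include M e in
theorem div [Infinite k] (hp : Pol φ.symm) (an : Ani (Pts k G k)) (x : A) : IsUnit x ∨ x = 0 := by
  by_contra! h0
  haveI := M.simple
  haveI : Module.Finite k A := Module.finite_of_finrank_pos (M.rank ▸ pow_pos (NeZero.pos n) 2)
  haveI := IsArtinianRing.of_finite k A
  obtain ⟨u, u1, u2⟩ := IsSemisimpleRing.ideal_eq_span_idempotent (Ideal.span {x})
  have u0 : u ≠ 0 := fun c => h0.2 (by simpa [c] using u2)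
  have u3 : 1 - u ≠ 0 := fun c => by
    obtain ⟨y, hy⟩ := Ideal.mem_span_singleton'.1 (u2.ge (Ideal.mem_span_singleton_self u))
    rw [← sub_eq_zero.1 c] at hy
    exact h0.1 ⟨⟨x, y, M.inj (by
      rw [map_mul, map_one, mul_eq_one_comm, ← map_mul, hy, map_one]), hy⟩, rfl⟩
  have u4 := u1.eq
  let l (i j : ℤ) : kˣ →* A :=
    { toFun := fun t => pw i t • u + pw j t • (1 - u)
      map_one' := by simp [pw]
      map_mul' := fun s t => by
        simp only [pw_mul, mul_add, add_mul, mul_sub, sub_mul, smul_mul_assoc, mul_smul_comm, u4,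
          mul_one, one_mul, smul_smul, smul_sub, smul_add, mul_comm (pw _ t)]
        abel }
  have l1 : ∀ i j i' j' s t, l i j s * l i' j' t =
      (pw i s * pw i' t) • u + (pw j s * pw j' t) • (1 - u) := fun i j i' j' s t => by
    simp only [l, MonoidHom.coe_mk, OneHom.coe_mk, mul_add, add_mul, mul_sub, sub_mul,
      smul_mul_assoc, mul_smul_comm, u4, mul_one, one_mul, smul_smul, smul_sub, smul_add,
      mul_comm (pw _ t)]
    abel
  have l2 : ∀ i j, (l i j : kˣ → A) ∈ PV (cA k) A := fun i j =>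
    pv_add (pv_gen (pw_mem i) _) (pv_gen (pw_mem j) _)
  have l3 := fun i j => scal (L := k) (M := K) (fun _ a => a.isUnit)
    (detMonoidHom.comp (M.j.toMonoidHom.comp (l i j))) (pv_det (pv_map M.j.toLinearMap (l2 i j)))
  obtain ⟨r, hr⟩ := l3 1 0
  obtain ⟨r', hr'⟩ := l3 0 1
  change ∀ t, (M.j (l 1 0 t)).det = _ at hr
  change ∀ t, (M.j (l 0 1 t)).det = _ at hr'
  have d1 : ∀ t, (M.j (l r' (-r) t)).det = 1 := fun t => by
    rw [show l r' (-r) t = l 1 0 (t ^ r') * l 0 1 (t ^ (-r)) by rw [l1]; simp [l, pw], map_mul,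
      det_mul, hr, hr', ← map_mul, pw, pw, ← Units.val_mul, ← _root_.zpow_mul, ← _root_.zpow_mul,
      ← _root_.zpow_add, show r' * r + -r * r' = 0 by ring, zpow_zero, Units.val_one, map_one]
  have d2 : r + r' = n := sub_eq_zero.1 (P011LA.zpow_inj (K := k) fun t => by
    rw [_root_.zpow_sub, mul_inv_eq_one, _root_.zpow_add, _root_.zpow_natCast]
    refine Units.ext ((algebraMap k K).injective ?_)
    have := congrArg (fun a => (M.j a).det) (l1 1 0 0 1 t t)
    simp only [map_mul, det_mul, hr, hr'] at this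
    rw [show (pw 1 t * pw 0 t) • u + (pw 0 t * pw 1 t) • (1 - u) = t.1 • (1 : A) by
      simp [pw, smul_sub], map_smul, map_one, ← algebraMap_smul K, det_smul, det_one, mul_one,
      Fintype.card_fin] at this
    rw [Units.val_mul, map_mul, Units.val_pow_eq_pow_val, map_pow]
    exact this)
  choose g hg using fun t => M.surj e (d1 t)
  have hz : ∀ g : Pts k G k, g.1.1 ∈ Z k G k := fun g p hp =>
    (algebraMap k K).injective ((ev_map (Algebra.ofId k K) _ p).symm.trans
      ((hp _ (up e g).2).trans (map_zero _).symm))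
  let μ : kˣ →* Matrix m m k :=
    { toFun := fun t => (g t).1.1
      map_one' := congrArg (·.1.1) (M.psk_inj e (h := 1) ((hg 1).trans
        (by rw [map_one]; exact (M.ps_one _).symm)))
      map_mul' := fun s t => congrArg (·.1.1) (M.psk_inj e (h := g s * g t) ((hg _).trans (by
        rw [map_mul, ← hg, ← hg]
        exact (M.ps_mul e _ (hz _) (hz _)).symm))) }
  obtain ⟨π, hπ⟩ := Module.Projective.exists_dual_eq_one k (one_ne_zero : (1 : K) ≠ 0)
  obtain ⟨c, y, hc⟩ := diag μ (pv_mat fun a b => by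
    obtain ⟨q, hq⟩ := hp a b
    convert pv_map π (pv_eval (RingHom.id K)
      (u := fun (e : Fin n × Fin n) t => M.j (l r' (-r) t) e.1 e.2)
      (fun e => pv_entry (pv_map M.j.toLinearMap (l2 _ _)) _ _) q) using 2 with t
    have h1 := hq (φ (up e (g t)))
    rw [MulEquiv.symm_apply_apply] at h1
    have h2 : M.j (l r' (-r) t) = (φ (up e (g t))).1.1 := by
      rw [← hg]
      exact M.j_up e _
    rw [h2]
    refine Eq.trans ?_ (congrArg π h1)
    show _ = π (algebraMap k K (μ t a b))
    rw [Algebra.algebraMap_eq_smul_one, map_smul, hπ, smul_eq_mul, mul_one])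
  obtain rfl := an c y fun t => ⟨g t, (g t).2, hc t⟩
  have h1 : ∀ t, l r' (-r) t = 1 := fun t => (hg t).symm.trans ((congrArg _
    (c.isUnit.mul_right_cancel ((hc t).trans (by simp [pw])) : μ t = 1)).trans (M.ps_one _))
  have h2 : r' = 0 := P011LA.zpow_inj (K := k) fun t => Units.ext
    (smul_left_injective k u0 (by simpa [l, add_mul, sub_mul, u4] using congrArg (· * u) (h1 t) :
      pw r' t • u = (1 : k) • u))
  have h3 : -r = 0 := P011LA.zpow_inj (K := k) fun t => Units.ext
    (smul_left_injective k u3 (by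
      simpa [l, add_mul, sub_mul, mul_sub, u4] using congrArg (· * (1 - u)) (h1 t) :
      pw (-r) t • (1 - u) = (1 : k) • (1 - u)))
  have := NeZero.pos n
  omega

include M e in
theorem ani [Infinite K] (hn : 2 ≤ n) (hp : Pol φ.symm) {L : Type} [Field L] [Infinite L]
    [Algebra k L] (hD : ∀ x : L ⊗[k] A, x ≠ 0 → IsUnit x) :
    Ani (Pts k G L) := by
  intro g y hy
  let Ω := AlgebraicClosure L
  let ι : K →ₐ[k] Ω := IsAlgClosed.lift
  let r := IsScalarTower.toAlgHom k L Ω
  let F : L ⊗[k] A →ₐ[L] Mn n Ω := lf (M.rp ι)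
  let w : A →ₐ[k] L ⊗[k] A := Algebra.TensorProduct.includeRight
  have hF := M.ps_nat r F.toRingHom.toAddMonoidHom (w := w) (w' := M.rp ι)
    fun c a => (map_smul F c _).trans ((congrArg _ ((lf_tmul _ _ _).trans (one_smul _ _))).trans
      (algebraMap_smul Ω c _).symm)
  let h : Lˣ → Matrix m m L := fun t => g.1 * (diagonal fun i => pw (y i) t) * (g⁻¹).1
  have hd : ∀ g ∈ G, g.1.det = 1 := fun g a => by
    simpa using perf2 hn (detMonoidHom.comp ((Units.coeHom _).comp
      (G.subtype.comp φ.symm.toMonoidHom))) (φ ⟨g, a⟩)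
  have h1 : ∀ t, h t ∈ Z k G L := fun t => by
    obtain ⟨u, a, b⟩ := hy t
    have : h t = u.1 := (congrArg (· * (g⁻¹).1) b.symm).trans (Units.mul_inv_cancel_right _ g)
    exact this ▸ Z_pts e hd a
  let μ : Lˣ →* L ⊗[k] A :=
    { toFun := fun t => M.ps w (h t)
      map_one' := by simpa [h, pw] using M.ps_one w
      map_mul' := fun s t => by
        rw [← M.ps_mul e w (h1 s) (h1 t)]
        simp [h, pw_mul, Matrix.mul_assoc, ← diagonal_mul_diagonal] }
  have h2 : h ∈ PV (cA L) (Matrix m m L) :=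
    pv_mmul (pv_mmul (pv_const g.1) (pv_mat (F := fun t => diagonal fun i => pw (y i) t)
      fun a b => by
        simp only [diagonal_apply]
        split_ifs
        exacts [pv_self (pw_mem _), pv_const _])) (pv_const (g⁻¹).1)
  haveI : Nontrivial (L ⊗[k] A) := F.toRingHom.domain_nontrivial
  obtain ⟨j, hj⟩ := scal hD μ (M.pv_ps h2 w)
  have h3 : ∀ t, M.ps (M.rp ι) ((h t).map r) =
      algebraMap Ω (Mn n Ω) (r (pw j t)) := fun t => (hF _).symm.trans ((congrArg F (hj t)).trans
    ((F.commutes _).trans (IsScalarTower.algebraMap_apply L Ω _ _)))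
  funext i
  refine (mul_eq_zero.1 (P011LA.zpow_inj (K := L) (m := n * y i) fun t => Units.ext ?_)).resolve_left
    (Nat.cast_ne_zero.2 (NeZero.ne n))
  have h4 := M.ps_det e hn (M.rp ι) (Z_map r (h1 t))
  rw [h3, Algebra.algebraMap_eq_smul_one, det_smul, det_one, mul_one, Fintype.card_fin] at h4
  have h5 := M.ps_inj e hp _ (Z_map r (h1 (t ^ n))) (by
    rw [h3, show pw j (t ^ n) = pw j t ^ n by simp [pw, ← zpow_natCast, ← _root_.zpow_mul, mul_comm],
      map_pow, h4, map_one])
  have h6 : h (t ^ n) = 1 := Matrix.map_injective r.injective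
    (h5.trans (Matrix.map_one _ (map_zero r) (map_one r)).symm)
  have h7 : (diagonal fun i => pw (y i) (t ^ n)) = 1 := by
    simpa [h, ← Matrix.mul_assoc] using congrArg (fun x => (g⁻¹).1 * (x * g.1)) h6
  simpa [pw, _root_.zpow_mul] using congrFun₂ h7 i i

variable [Infinite K] (hn : 2 ≤ n) {L : Type} [Field L] [Algebra k L]

omit [NeZero n]

include φ e hn in
theorem zp (g : Pts k G L) : g.1.1 ∈ Z k G L := Z_pts e (fun g a => by
  simpa using perf2 hn (detMonoidHom.comp ((Units.coeHom _).comp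
    (G.subtype.comp φ.symm.toMonoidHom))) (φ ⟨g, a⟩)) g.2

/-- the homomorphism on points -/
noncomputable def hom {X : Type} [Ring X] [Algebra k X] [Algebra L X] [IsScalarTower k L X]
    (w : A →ₐ[k] X) : Pts k G L →* X where
  toFun g := M.ps w g.1.1
  map_one' := M.ps_one w
  map_mul' g h := M.ps_mul e w (zp (φ := φ) e hn g) (zp (φ := φ) e hn h)

variable (L) in
/-- the homomorphism on local points -/
noncomputable def loc : Pts k G L →* GP k A L n :=
  (M.hom e hn (Algebra.TensorProduct.includeRight : A →ₐ[k] L ⊗[k] A)).toHomUnits.codRestrict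
    (Subgroup.closure {x : (L ⊗[k] A)ˣ | ∀ (Ω : Type) [Field Ω] [Algebra L Ω]
      (F : L ⊗[k] A →ₐ[L] Matrix (Fin n) (Fin n) Ω), (F x).det = 1}) fun g => Subgroup.subset_closure
      fun Ω _ _ F => by
        letI : Algebra k Ω := ((algebraMap L Ω).comp (algebraMap k L)).toAlgebra
        haveI : IsScalarTower k L Ω := .of_algebraMap_eq' rfl
        exact (congrArg det (M.ps_nat (IsScalarTower.toAlgHom k L Ω) F.toRingHom.toAddMonoidHom
          (w' := (F.restrictScalars k).comp Algebra.TensorProduct.includeRight)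
          (fun c a => (map_smul F c _).trans (algebraMap_smul Ω c _).symm) _)).trans
          (M.ps_det e hn _ (Z_map _ (zp (φ := φ) e hn g)))

theorem loc_cont [TopologicalSpace L] [IsTopologicalRing L] : Continuous (M.loc e hn L) := by
  letI := moduleTopology L (L ⊗[k] A)
  haveI := IsModuleTopology.toContinuousAdd L (L ⊗[k] A)
  refine continuous_induced_rng.2 (continuous_finsetSum M.s fun i _ =>
    Continuous.fun_smul ?_ continuous_const)
  simp only [ev, MvPolynomial.aeval_def, ← MvPolynomial.eval_map]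
  exact (MvPolynomial.continuous_eval _).comp (continuous_pi fun e =>
    (Units.continuous_val.comp continuous_subtype_val).matrix_elem _ _)

theorem loc_map (g : Pts k G k) :
    (M.loc e hn L (mapP (Algebra.ofId k L) g)).1.1 = 1 ⊗ₜ M.ps (AlgHom.id k A) g.1.1 :=
  (M.ps_nat (Algebra.ofId k L) (Algebra.TensorProduct.includeRight :
    A →ₐ[k] L ⊗[k] A).toRingHom.toAddMonoidHom (w := AlgHom.id k A)
    (w' := Algebra.TensorProduct.includeRight) (fun c a => (map_smul
      (Algebra.TensorProduct.includeRight : A →ₐ[k] L ⊗[k] A) c a).trans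
      (algebraMap_smul L c _).symm) g.1.1).symm

include M e hn in
theorem xi [Infinite k] [NeZero n] (hp : Pol φ.symm) :
    ∃ Ξ : (∀ v : AG k G, Pts k G v.abv.Completion) →* ∀ v : AD k A, GP k A (Full.Kv v.abv) n,
      Continuous Ξ ∧ ∀ (g : Pts k G k) w, (Ξ (fun v => mapP (Algebra.ofId k v.abv.Completion) g)
        w).1.1 = 1 ⊗ₜ M.ps (AlgHom.id k A) g.1.1 :=
  ⟨MonoidHom.pi fun w => (M.loc e hn w.abv.Completion).comp (Pi.evalMonoidHom _
    (⟨w.abv, w.nonarch, w.normalized,
      haveI : Infinite w.abv.Completion := .of_injective _ (algebraMap k _).injective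
      M.ani e hn hp w.div⟩ : AG k G)),
    continuous_pi fun w => (M.loc_cont e hn).comp (continuous_apply _),
    fun g w => M.loc_map e hn g⟩

end Mi

theorem ti_of (hD : MPD) : P011U.TI := by
  intro k K _ _ _ _ m G an n φ hn hk h ho
  haveI : NeZero n := ⟨by omega⟩
  haveI : Infinite k := hk.elim (fun _ => .of_injective _ Nat.cast_injective)
    fun ⟨F, _, _, _, _⟩ => .of_injective _
      ((algebraMap (RatFunc F) k).injective.comp (RatFunc.algebraMap_injective F))
  haveI := Infinite.of_injective _ (algebraMap k K).injective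
  obtain ⟨A, _, _, ⟨M⟩⟩ := exists_mi hn h (ho.elim (fun e => by subst e; exact inn_of_two h) id)
  haveI := M.simple
  letI := DivisionRing.ofIsUnitOrEqZero (M.div h.1 h.2.2 an)
  haveI := M.central
  haveI : FiniteDimensional k A := Module.finite_of_finrank_pos (M.rank ▸ pow_pos (NeZero.pos n) 2)
  choose N hN using P011.H327.TN.exists_hasNrd (K := k) (D := A) M.rank
  have n1 : ∀ x, (M.j x).det = algebraMap k K (N x) := fun x => hN x K M.j
  let N' : A →* k :=
    { toFun := N
      map_one' := (algebraMap k K).injective (by rw [← n1, map_one, map_one, det_one])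
      map_mul' := fun x y => (algebraMap k K).injective (by
        rw [map_mul, ← n1, ← n1, ← n1, map_mul, det_mul]) }
  let η : Pts k G k →* G1 N' := (M.hom h.1 hn (AlgHom.id k A)).toHomUnits.codRestrict _ fun g =>
    mem_G1.2 ((algebraMap k K).injective ((n1 _).symm.trans ((congrArg det (M.j_up h.1 g)).trans
      ((mem_SA.1 (φ _).2).trans (map_one _).symm))))
  have e1 : Function.Injective η := fun a b c => M.psk_inj h.1 (congrArg (·.1.1) c)
  have e2 : Function.Surjective η := fun u => (M.surj h.1 (u := u.1.1) ((n1 _).trans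
    ((congrArg _ (mem_G1.1 u.2)).trans (map_one _)))).imp fun g a => Subtype.ext (Units.ext a)
  obtain ⟨Ξ, x1, x2⟩ := M.xi h.1 hn h.2.2
  obtain ⟨δ, d1, d2⟩ := hD k A n N' ⟨hk, inferInstance, hn, M.rank, hN⟩
  refine ⟨MonoidHom.pi fun v => mapP (Algebra.ofId k v.abv.Completion), fun g v => rfl,
    fun N h1 h2 => ?_⟩
  obtain ⟨W, w1, w2, w3⟩ := d2 (N.map η) (h1.map η e2) fun a => h2 fun g b =>
    Subgroup.mem_center_iff.2 fun x => e1 (by
      rw [η.map_mul, η.map_mul]
      exact Subgroup.mem_center_iff.1 (a ⟨g, b, rfl⟩) _)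
  refine ⟨W.comap Ξ, w1.preimage x1, w2.comap _, ?_⟩
  rw [← Subgroup.comap_map_eq_self_of_injective e1 N, w3, Subgroup.comap_comap,
    Subgroup.comap_comap]
  refine congrArg (Subgroup.comap · W) (MonoidHom.ext fun g => ?_)
  funext w
  exact Subtype.ext (Units.ext ((d1 (η g) w).trans (x2 g w).symm))

end Vale.Agent.P011UH
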